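import Vale.Agent.P151.R3.H17.Scl
import Vale.Agent.P151.H36.CocL2

/-!
# P151, R3: the group `G₀` of sequences of bounded length, its limit length and its volume
-/

universe u v w

open Filter Topology

namespace Vale.Agent.P151.R3.H362

open Vale.Agent.P151.GB Vale.Agent.P151.H36 Vale.Agent.P151.R3.V

/-- Bounded natural sequences are eventually constant along an ultrafilter. -/
theorem exists_lim (F : Ultrafilter ℕ) (f : ℕ → ℕ) (h : ∃ B : ℕ, ∀ᶠ n in (F : Filter ℕ), f n ≤ B) :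
    ∃ k, ∀ᶠ n in (F : Filter ℕ), f n = k := by
  obtain ⟨B, hB⟩ := h
  induction B with
  | zero => exact ⟨0, hB.mono fun n hn => Nat.le_zero.1 hn⟩
  | succ B ih =>
    rcases (Ultrafilter.eventually_or (f := F) (p := fun n => f n ≤ B)
      (q := fun n => f n = B + 1)).1 (hB.mono fun n hn => by omega) with h | h
    · exact ih h
    · exact ⟨_, h⟩

variable {Γ : Type u} [Group Γ]

/-- The group of sequences of bounded length. -/
def G0 (F : Ultrafilter ℕ) (L : ℕ → Len Γ) : Subgroup (ℕ → Γ) where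
  carrier := {g | ∃ B : ℕ, ∀ᶠ n in (F : Filter ℕ), (L n).ℓ (g n) ≤ B}
  one_mem' := ⟨0, Eventually.of_forall fun n => by
    rw [Pi.one_apply, (L n).one]⟩
  mul_mem' := by
    rintro g h ⟨B, hB⟩ ⟨B', hB'⟩
    refine ⟨B + B', ?_⟩
    filter_upwards [hB, hB'] with n h1 h2
    exact ((L n).mul _ _).trans (add_le_add h1 h2)
  inv_mem' := by
    rintro g ⟨B, hB⟩
    refine ⟨B, ?_⟩
    filter_upwards [hB] with n h1
    rw [Pi.inv_apply, (L n).inv]
    exact h1

variable (F : Ultrafilter ℕ) (L : ℕ → Len Γ)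

/-- The limit length. -/
noncomputable def nl (g : G0 F L) : ℕ := (exists_lim F _ g.2).choose

variable {F L}

theorem nl_spec (g : G0 F L) : ∀ᶠ n in (F : Filter ℕ), (L n).ℓ (g.1 n) = nl F L g :=
  (exists_lim F _ g.2).choose_spec

theorem nl_eq {g : G0 F L} {k : ℕ} (h : ∀ᶠ n in (F : Filter ℕ), (L n).ℓ (g.1 n) = k) :
    nl F L g = k := by
  obtain ⟨n, h1, h2⟩ := (h.and (nl_spec g)).exists
  rw [← h2, h1]

theorem nl_le {g : G0 F L} {k : ℕ} (h : ∀ᶠ n in (F : Filter ℕ), (L n).ℓ (g.1 n) ≤ k) :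
    nl F L g ≤ k := by
  obtain ⟨n, h1, h2⟩ := (h.and (nl_spec g)).exists
  rw [← h2]
  exact h1

theorem nl_one : nl F L 1 = 0 := nl_eq (Eventually.of_forall fun n => (L n).one)

theorem nl_inv (g : G0 F L) : nl F L g⁻¹ = nl F L g := by
  refine nl_eq ?_
  filter_upwards [nl_spec g] with n hn
  show (L n).ℓ (g.1 n)⁻¹ = _
  rw [(L n).inv, hn]

theorem nl_mul (g h : G0 F L) : nl F L (g * h) ≤ nl F L g + nl F L h := by
  refine nl_le ?_
  filter_upwards [nl_spec g, nl_spec h] with n h1 h2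
  exact ((L n).mul _ _).trans (by rw [h1, h2])

/-- Splitting into letters. -/
theorem exists_letters {M : Len Γ} (hM : Split M) (k : ℕ) (g : Γ) :
    ∃ l : Fin (k + 1) → Γ, (List.ofFn l).prod = g ∧ (M.ℓ g ≤ k → ∀ j, M.ℓ (l j) ≤ 1) := by
  induction k generalizing g with
  | zero =>
    exact ⟨fun _ => g, by simp, fun h j => h.trans (Nat.zero_le 1)⟩
  | succ k ih =>
    by_cases hg : M.ℓ g ≤ k + 1
    · obtain ⟨x, y, rfl, hx, hy⟩ := hM g k 1 hg
      obtain ⟨l, hl1, hl2⟩ := ih x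
      refine ⟨Fin.snoc l y, ?_, fun _ j => ?_⟩
      · rw [List.ofFn_succ', List.concat_eq_append, List.prod_append]
        simp only [Fin.snoc_castSucc, Fin.snoc_last, List.prod_singleton]
        rw [hl1]
      · refine Fin.lastCases ?_ (fun i => ?_) j
        · rw [Fin.snoc_last]; exact hy
        · rw [Fin.snoc_castSucc]; exact hl2 hx i
    · refine ⟨Fin.cons g fun _ => 1, ?_, fun h => absurd h hg⟩
      rw [List.ofFn_succ]
      simp

/-- The limit length as an `NLen`. -/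
noncomputable def nlen (hsplit : ∀ n, Split (L n)) : NLen (G0 F L) where
  ℓ := nl F L
  one := nl_one
  inv := nl_inv
  mul := nl_mul
  geo := by
    intro g
    have h1 : ∀ n, ∃ l : Fin (nl F L g + 1) → Γ, (List.ofFn l).prod = g.1 n ∧
        ((L n).ℓ (g.1 n) ≤ nl F L g → ∀ j, (L n).ℓ (l j) ≤ 1) :=
      fun n => exists_letters (hsplit n) _ _
    choose l hl1 hl2 using h1
    have hmem : ∀ j, (fun n => l n j) ∈ G0 F L := fun j =>
      ⟨1, by filter_upwards [nl_spec g] with n hn; exact hl2 n hn.le j⟩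
    refine ⟨List.ofFn fun j => (⟨fun n => l n j, hmem j⟩ : G0 F L), by simp, ?_, ?_⟩
    · intro x hx
      rw [List.mem_ofFn] at hx
      obtain ⟨j, rfl⟩ := hx
      refine nl_le ?_
      filter_upwards [nl_spec g] with n hn
      exact hl2 n hn.le j
    · refine Subtype.ext (funext fun n => ?_)
      have h2 : ((List.ofFn fun j => (⟨fun n => l n j, hmem j⟩ : G0 F L)).prod.1 n) =
          ((List.ofFn fun j => (⟨fun n => l n j, hmem j⟩ : G0 F L)).map
            ((Pi.evalMonoidHom (fun _ => Γ) n).comp (G0 F L).subtype)).prod := by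
        rw [← map_list_prod]
        rfl
      rw [h2, List.map_ofFn, ← hl1 n]
      rfl

theorem nlen_ℓ (hsplit : ∀ n, Split (L n)) (g : G0 F L) : (nlen (F := F) hsplit).ℓ g = nl F L g :=
  rfl

/-- Counting separated families. -/
theorem pack (hL : ∀ n, (L n).Proper) (hsplit : ∀ n, Split (L n)) (C : ℝ)
    (hvol : ∀ A : ℕ, ∀ᶠ n in (F : Filter ℕ),
      ((bl (hL n) (A + 2)).card : ℝ) ≤ C * (A + 1) ^ 2 * (bl (hL n) 2).card)
    (A : ℕ) (S : Finset (G0 F L)) (hS : ∀ x ∈ S, (nlen (F := F) hsplit).ℓ x ≤ A)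
    (hsep : (nlen (F := F) hsplit).Sep S) : (S.card : ℝ) ≤ C * (A + 1) ^ 2 := by
  classical
  have h1 : ∀ᶠ n in (F : Filter ℕ), ∀ x ∈ S, (L n).ℓ (x.1 n) ≤ A := by
    rw [Filter.eventually_all_finset]
    intro x hx
    filter_upwards [nl_spec x] with n hn
    rw [hn]
    exact hS x hx
  have h2 : ∀ᶠ n in (F : Filter ℕ), ∀ x ∈ S, ∀ y ∈ S, x ≠ y → 4 < (L n).ℓ ((x.1 n)⁻¹ * y.1 n) := by
    rw [Filter.eventually_all_finset]
    intro x hx
    rw [Filter.eventually_all_finset]
    intro y hy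
    by_cases hxy : x = y
    · exact Eventually.of_forall fun n hne => absurd hxy hne
    · filter_upwards [nl_spec (x⁻¹ * y)] with n hn _
      have h3 := hsep x hx y hy hxy
      rw [nlen_ℓ] at h3
      have h4 : (L n).ℓ ((x.1 n)⁻¹ * y.1 n) = nl F L (x⁻¹ * y) := hn
      omega
  obtain ⟨n, hn1, hn2, hn3⟩ := (h1.and (h2.and (hvol A))).exists
  have hsub : S.biUnion (fun x => (bl (hL n) 2).image fun y => (x.1 n) • y) ⊆ bl (hL n) (A + 2) := by
    intro z hz
    rw [Finset.mem_biUnion] at hz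
    obtain ⟨x, hx, hz⟩ := hz
    rw [Finset.mem_image] at hz
    obtain ⟨y, hy, rfl⟩ := hz
    rw [mem_bl] at hy ⊢
    have h3 := nr_smul_le (L n) (x.1 n) y
    have h4 := hn1 x hx
    omega
  have hdisj : (S : Set (G0 F L)).PairwiseDisjoint
      (fun x => (bl (hL n) 2).image fun y => (x.1 n) • y) := by
    intro x hx y hy hxy
    rw [Function.onFun, Finset.disjoint_left]
    intro z hz hz'
    rw [Finset.mem_image] at hz hz'
    obtain ⟨a, ha, rfl⟩ := hz
    obtain ⟨b, hb, hab⟩ := hz'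
    rw [mem_bl] at ha hb
    have h3 := hn2 x hx y hy hxy
    have h4 : a = ((x.1 n)⁻¹ * y.1 n) • b := by
      rw [mul_smul, hab, inv_smul_smul]
    -- `a = g • b`, so `ℓ g ≤ 4`
    have h5 : (L n).ℓ ((x.1 n)⁻¹ * y.1 n) ≤ 4 := by
      set g := (x.1 n)⁻¹ * y.1 n with hg
      have h6 : ((g * b.out : Γ) : Γ ⧸ (L n).K) = (a.out : Γ ⧸ (L n).K) := by
        rw [← smul_eq, ← h4, QuotientGroup.out_eq']
      have h7 : (L n).ℓ (g * b.out) = (L n).ℓ a.out := by
        rw [← nr_mk (L n) (g * b.out), h6, nr_mk]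
      have h8 : g = (g * b.out) * (b.out)⁻¹ := by group
      rw [h8]
      refine ((L n).mul _ _).trans ?_
      rw [(L n).inv, h7]
      have : (L n).ℓ a.out ≤ 2 := ha
      have : (L n).ℓ b.out ≤ 2 := hb
      omega
    omega
  have hcard : (S.biUnion (fun x => (bl (hL n) 2).image fun y => (x.1 n) • y)).card =
      S.card * (bl (hL n) 2).card := by
    rw [Finset.card_biUnion hdisj, Finset.sum_congr rfl fun x _ =>
      Finset.card_image_of_injective _ (MulAction.injective (x.1 n)), Finset.sum_const,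
      smul_eq_mul]
  have h3 := Finset.card_le_card hsub
  rw [hcard] at h3
  have hpos : 0 < (bl (hL n) 2).card := Finset.card_pos.2 ⟨((1 : Γ) : Γ ⧸ (L n).K), by
    rw [mem_bl, nr_mk, (L n).one]; exact Nat.zero_le _⟩
  have h4 : (S.card : ℝ) * (bl (hL n) 2).card ≤ C * (A + 1) ^ 2 * (bl (hL n) 2).card := by
    refine le_trans ?_ hn3
    exact_mod_cast h3
  exact le_of_mul_le_mul_right h4 (by exact_mod_cast hpos)

end Vale.Agent.P151.R3.H362
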