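import Vale.Agent.P151.RG.Top
import Vale.Agent.P151.R3.H362.G0

/-!
# P151, R3: properties of the word length of a window
-/

open Filter Topology Pointwise

namespace Vale.Agent.P151.R3.H362

open Vale.Agent.P151.GB Vale.Agent.P151.H36 Vale.Agent.P151.R3.V Vale.Agent.P151.R3.H860
  Vale.Agent.P151.RG

variable {Γ : Type} [Group Γ] {L : Len Γ} {P : Set Γ} {D : Len Γ}

theorem K_eq (h : WLen L P D) : D.K = L.K := by
  ext g
  exact h.ker g

theorem wlen_split (h : WLen L P D) : Split D := by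
  intro g a b hg
  rcases Nat.eq_zero_or_pos a with rfl | ha
  · exact ⟨1, g, (one_mul g).symm, by rw [D.one], by omega⟩
  · rcases Nat.eq_zero_or_pos b with rfl | hb
    · exact ⟨g, 1, (mul_one g).symm, by omega, by rw [D.one]⟩
    · have h1 := (h.pow (a + b) (by omega) g).1 hg
      rw [pow_add] at h1
      obtain ⟨x, hx, y, hy, rfl⟩ := h1
      exact ⟨x, y, rfl, (h.pow a ha x).2 hx, (h.pow b hb y).2 hy⟩

/-- The identification of the coset spaces. -/
def eK (h : WLen L P D) : Γ ⧸ D.K ≃ Γ ⧸ L.K := Subgroup.quotientEquivOfEq (K_eq h)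

theorem eK_mk (h : WLen L P D) (g : Γ) : eK h (g : Γ ⧸ D.K) = (g : Γ ⧸ L.K) := rfl

theorem image_ball (h : WLen L P D) {m : ℕ} (hm : 1 ≤ m) :
    eK h '' D.ball m = cos L (P ^ m) := by
  ext x
  constructor
  · rintro ⟨_, ⟨g, hg, rfl⟩, rfl⟩
    exact ⟨g, (h.pow m hm g).1 hg, rfl⟩
  · rintro ⟨g, hg, rfl⟩
    exact ⟨_, ⟨g, (h.pow m hm g).2 hg, rfl⟩, rfl⟩

theorem ncard_ball (h : WLen L P D) {m : ℕ} (hm : 1 ≤ m) :
    (D.ball m).ncard = (cos L (P ^ m)).ncard := by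
  rw [← image_ball h hm, Set.ncard_image_of_injective _ (eK h).injective]

theorem cos_mul_finite (hP : ∀ g ∈ P, ∀ k ∈ L.K, k * g ∈ P) {Q : Set Γ} (hQ : (cos L Q).Finite)
    (hPf : (cos L P).Finite) : (cos L (Q * P)).Finite := by
  have hsub : cos L (Q * P) ⊆ ⋃ x ∈ cos L Q, (fun y => x.out • y) '' cos L P := by
    rintro _ ⟨_, ⟨q, hq, p, hp, rfl⟩, rfl⟩
    rw [Set.mem_iUnion₂]
    refine ⟨(q : Γ ⧸ L.K), ⟨q, hq, rfl⟩, ?_⟩
    obtain ⟨k, hk⟩ := QuotientGroup.mk_out_eq_mul L.K q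
    refine ⟨((k : Γ)⁻¹ * p : Γ), ⟨_, hP p hp _ (L.K.inv_mem k.2), rfl⟩, ?_⟩
    show (((q : Γ ⧸ L.K).out * ((k : Γ)⁻¹ * p) : Γ) : Γ ⧸ L.K) = ((q * p : Γ) : Γ ⧸ L.K)
    rw [hk]
    congr 1
    group
  exact (hQ.biUnion fun x _ => hPf.image _).subset hsub

theorem K_mul_mem {w M C : ℕ} (hW : Win L P w M C) : ∀ g ∈ P, ∀ k ∈ L.K, k * g ∈ P := by
  intro g hg k hk
  have h1 := hW.inv _ (hW.mul_K _ (hW.inv g hg) k⁻¹ (L.K.inv_mem hk))
  have e : (g⁻¹ * k⁻¹)⁻¹ = k * g := by group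
  rwa [e] at h1

theorem cos_pow_finite {w M C : ℕ} (hW : Win L P w M C) (m : ℕ) (hm : 1 ≤ m) :
    (cos L (P ^ m)).Finite := by
  induction m, hm using Nat.le_induction with
  | base => rw [pow_one]; exact hW.fin
  | succ m _ ih =>
    rw [pow_succ]
    exact cos_mul_finite (K_mul_mem hW) ih hW.fin

theorem wlen_proper {w M C : ℕ} (h : WLen L P D) (hW : Win L P w M C) : D.Proper := by
  intro m
  have h1 : (D.ball (m + 1)).Finite := by
    have h2 := cos_pow_finite hW (m + 1) (by omega)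
    rw [← image_ball h (by omega)] at h2
    exact h2.of_finite_image (eK h).injective.injOn
  refine h1.subset ?_
  rintro _ ⟨g, hg, rfl⟩
  exact ⟨g, Nat.le_succ_of_le hg, rfl⟩

theorem card_bl (h : WLen L P D) (hD : D.Proper) {m : ℕ} (hm : 1 ≤ m) :
    (bl hD m).card = (cos L (P ^ m)).ncard := by
  rw [← ncard_ball h hm, bl, Set.ncard_eq_toFinset_card _ (hD m)]

/-- The volume bound. -/
theorem vol_bound {w M C : ℕ} (h : WLen L P D) (hW : Win L P w M C) (hD : D.Proper) (A : ℕ)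
    (hA : A + 2 ≤ M) :
    ((bl hD (A + 2)).card : ℝ) ≤ (4 * C) * (A + 1) ^ 2 * (bl hD 2).card := by
  have h1 : (bl hD (A + 2)).card ≤ C * (A + 2) ^ 2 * (bl hD 1).card := by
    rw [card_bl h hD (by omega), card_bl h hD le_rfl, pow_one]
    exact hW.grow _ (by omega) hA
  have h2 : (bl hD 1).card ≤ (bl hD 2).card := Finset.card_le_card (bl_mono hD (by omega))
  have h3 : (bl hD (A + 2)).card ≤ 4 * C * (A + 1) ^ 2 * (bl hD 2).card := by
    refine h1.trans ?_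
    refine Nat.mul_le_mul ?_ h2
    calc C * (A + 2) ^ 2 ≤ C * (2 * (A + 1)) ^ 2 :=
          Nat.mul_le_mul_left _ (Nat.pow_le_pow_left (by omega) 2)
      _ = 4 * C * (A + 1) ^ 2 := by ring
  exact_mod_cast h3

end Vale.Agent.P151.R3.H362
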