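import Vale.Agent.P151.R3.H362.Lim

/-!
# P151, R3, block H: the finite-dimensional affine isometric action
-/

universe u v w

open Filter Topology
open scoped RealInnerProductSpace

namespace Vale.Agent.P151.R3.H362

section restr

variable {V : Type v} [NormedAddCommGroup V] [InnerProductSpace ℝ V]

/-- The restriction of an isometry to an invariant subspace. -/
noncomputable def restrIso (W : Submodule ℝ V) (U : V ≃ₗᵢ[ℝ] V) (h : ∀ v ∈ W, U v ∈ W)
    (h' : ∀ v ∈ W, U.symm v ∈ W) : W ≃ₗᵢ[ℝ] W where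
  toFun x := ⟨U x, h x x.2⟩
  map_add' x y := Subtype.ext (by simp)
  map_smul' c x := Subtype.ext (by simp)
  invFun x := ⟨U.symm x, h' x x.2⟩
  left_inv x := Subtype.ext (by simp)
  right_inv x := Subtype.ext (by simp)
  norm_map' x := by
    show ‖U (x : V)‖ = ‖(x : V)‖
    exact U.norm_map _

theorem restrIso_coe (W : Submodule ℝ V) (U : V ≃ₗᵢ[ℝ] V) (h : ∀ v ∈ W, U v ∈ W)
    (h' : ∀ v ∈ W, U.symm v ∈ W) (x : W) : ((restrIso W U h h' x : W) : V) = U x := rfl

variable {G : Type u} [Group G]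

theorem symm_eq_inv (π : G →* (V ≃ₗᵢ[ℝ] V)) (g : G) : (π g).symm = π g⁻¹ := by
  rw [map_inv]; rfl

/-- The restriction of a representation to an invariant subspace. -/
noncomputable def restrRep (W : Submodule ℝ V) (π : G →* (V ≃ₗᵢ[ℝ] V))
    (h : ∀ g, ∀ v ∈ W, π g v ∈ W) : G →* (W ≃ₗᵢ[ℝ] W) :=
  MonoidHom.mk' (fun g => restrIso W (π g) (h g) (fun v hv => by
    rw [symm_eq_inv]; exact h g⁻¹ v hv)) (fun g g' => by
    refine LinearIsometryEquiv.ext fun x => Subtype.ext ?_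
    show π (g * g') (x : V) = π g (π g' (x : V))
    rw [map_mul]
    rfl)

theorem restrRep_coe (W : Submodule ℝ V) (π : G →* (V ≃ₗᵢ[ℝ] V))
    (h : ∀ g, ∀ v ∈ W, π g v ∈ W) (g : G) (x : W) :
    ((restrRep W π h g x : W) : V) = π g x := rfl

/-- The projection to an invariant finite-dimensional subspace commutes with the
representation. -/
theorem proj_comm (W : Submodule ℝ V) [W.HasOrthogonalProjection] (π : G →* (V ≃ₗᵢ[ℝ] V))
    (h : ∀ g, ∀ v ∈ W, π g v ∈ W) (g : G) (x : V) :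
    W.starProjection (π g x) = π g (W.starProjection x) := by
  refine W.eq_starProjection_of_mem_of_inner_eq_zero (h g _ (W.starProjection_apply_mem x)) ?_
  intro w hw
  rw [← map_sub]
  have h1 : ⟪π g (x - W.starProjection x), w⟫ = ⟪x - W.starProjection x, π g⁻¹ w⟫ := by
    rw [← (π g).inner_map_map (x - W.starProjection x) (π g⁻¹ w), ← symm_eq_inv,
      LinearIsometryEquiv.apply_symm_apply]
  rw [h1]
  exact W.starProjection_inner_eq_zero _ _ (h g⁻¹ w hw)

end restr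

section main

variable {I : Type u} {F : Ultrafilter I} {H : I → Type v} [∀ i, NormedAddCommGroup (H i)]
  [∀ i, InnerProductSpace ℝ (H i)]

theorem blockH {G : Type w} [Group G] (ρ : G →* ∀ i, H i ≃ₗᵢ[ℝ] H i) (b : G → ∀ i, H i)
    (ℓ : G → ℝ) (C c : ℝ) (T : ℕ → ∀ i, H i →ₗ[ℝ] H i)
    (hcoc : ∀ g h, ∀ᶠ i in (F : Filter I), b (g * h) i = b g i + ρ g i (b h i))
    (hbd : ∀ g, ∀ᶠ i in (F : Filter I), ‖b g i‖ ≤ C * (1 + ℓ g))
    (hsym : ∀ k, ∀ᶠ i in (F : Filter I), ∀ x y, ⟪T k i x, y⟫ = ⟪x, T k i y⟫)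
    (hpos : ∀ k, ∀ᶠ i in (F : Filter I), ∀ x, 0 ≤ ⟪T k i x, x⟫)
    (hC : 0 ≤ C) (hc : 0 ≤ c) (hnorm : ∀ k, ∀ᶠ i in (F : Filter I), ∀ x, ‖T k i x‖ ≤ c * ‖x‖)
    (htr : ∀ k, ∀ᶠ i in (F : Filter I), TrB (fun x => ⟪T k i x, x⟫) c)
    (hcomm : ∀ g, ∃ D : ℝ, ∀ k : ℕ, 1 ≤ k → ∀ᶠ i in (F : Filter I), ∀ x,
      ‖T k i (ρ g i x) - ρ g i (T k i x)‖ ≤ D / Real.sqrt k * ‖x‖)
    (K0 : Set ℕ) (hK0 : K0.Infinite)
    (hOz : ∀ g, ∃ D : ℝ, ∀ k ∈ K0, ∀ᶠ i in (F : Filter I), ∀ x,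
      ⟪b g i, x⟫ ^ 2 ≤ D * (⟪T k i x, x⟫ + ‖x‖ ^ 2 / Real.sqrt k))
    (hsel : ∀ k : ℕ, 1 ≤ k → ∃ J : ℝ, ∀ lam : ℝ, 0 < lam → ∃ e : ℝ, 0 < e ∧ ∀ u : ∀ i, H i,
      (∀ᶠ i in (F : Filter I), ‖u i‖ ≤ 2 ∧ lam ≤ ⟪T k i (u i), u i⟫) →
        ∃ g, ℓ g ≤ J ∧ ∀ᶠ i in (F : Filter I), e ≤ ⟪b g i, u i⟫)
    (hne : ∃ g, ¬ Tendsto (fun i => ‖b g i‖) F (𝓝 0)) :
    ∃ (W : Type (max u v)) (_ : NormedAddCommGroup W) (_ : InnerProductSpace ℝ W)
      (_ : FiniteDimensional ℝ W) (_ : Nontrivial W) (π : G →* (W ≃ₗᵢ[ℝ] W)) (β : G → W),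
      (∀ g h, β (g * h) = β g + π g (β h)) ∧ (∀ g, ‖β g‖ ≤ C * (1 + ℓ g)) ∧
      (∀ g, (∀ᶠ i in (F : Filter I), b g i = 0) → β g = 0) ∧
      ∃ J e : ℝ, 0 < e ∧ ∀ u : W, ‖u‖ = 1 → ∃ g, ℓ g ≤ J ∧ e ≤ ⟪β g, u⟫ := by
  classical
  have hbB : ∀ g, b g ∈ Bdd F H := fun g => ⟨_, hbd g⟩
  set B : G → UP F H := fun g => mk F H ⟨b g, hbB g⟩ with hB
  set π : G →* (UP F H ≃ₗᵢ[ℝ] UP F H) := (isoHom F H).comp ρ with hπ
  have hBc : ∀ g h, B (g * h) = B g + π g (B h) := by
    intro g h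
    have h1 : π g (B h) = mk F H (isoPre (ρ g) ⟨b h, hbB h⟩) := isoHom_mk _ _
    rw [h1, hB]
    simp only
    rw [← map_add]
    refine mk_eq_of_eventuallyEq ?_
    filter_upwards [hcoc g h] with i hi
    exact hi
  have hBn : ∀ g, ‖B g‖ ≤ C * (1 + ℓ g) := fun g => norm_mk_le _ (hbd g)
  have hTb : ∀ k, BddOp F (T k) := fun k => ⟨c, hc, hnorm k⟩
  set S : ℕ → UP F H →L[ℝ] UP F H := fun k => op (T k) (hTb k) with hS
  have hSn : ∀ k x, ‖S k x‖ ≤ c * ‖x‖ := fun k x => norm_op_apply_le _ _ (hnorm k) x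
  -- the ultrafilter on the good `k`
  have hne0 : (atTop ⊓ 𝓟 K0 : Filter ℕ).NeBot := by
    rw [← frequently_mem_iff_neBot]
    exact Nat.frequently_atTop_iff_infinite.2 hK0
  set W0 : Ultrafilter ℕ := Ultrafilter.of (atTop ⊓ 𝓟 K0) with hW0
  have hW1 : (W0 : Filter ℕ) ≤ atTop := (Ultrafilter.of_le _).trans inf_le_left
  have hW2 : ∀ᶠ k in (W0 : Filter ℕ), k ∈ K0 := by
    have : (W0 : Filter ℕ) ≤ 𝓟 K0 := (Ultrafilter.of_le _).trans inf_le_right
    exact this (mem_principal_self K0)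
  obtain ⟨T0, hT0⟩ := exists_weak_limit W0 S c hSn
  have hT0sa : ∀ v w, ⟪T0 v, w⟫ = ⟪v, T0 w⟫ := by
    intro v w
    have h1 := hT0 v w
    have h2 := hT0 w v
    rw [← real_inner_comm v (T0 w)]
    refine tendsto_nhds_unique (h1.congr fun k => ?_) h2
    rw [hS]
    simp only
    rw [op_symm _ _ (hsym k), real_inner_comm]
  have hT0pos : ∀ v, 0 ≤ ⟪T0 v, v⟫ := fun v =>
    ge_of_tendsto (hT0 v v) (Eventually.of_forall fun k => op_nonneg _ _ (hpos k) v)
  have hT0tr : TrB (fun x => ⟪T0 x, x⟫) c := by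
    intro m x κ hκ hx
    refine le_of_tendsto (tendsto_finsetSum _ fun j _ => hT0 (x j) (x j))
      (Eventually.of_forall fun k => ?_)
    exact trB_op (T k) (hTb k) c (htr k) m x κ hκ hx
  have hT0comm : ∀ g v, T0 (π g v) = π g (T0 v) := by
    intro g v
    obtain ⟨D, hD⟩ := hcomm g
    have h1 : ∀ k : ℕ, 1 ≤ k → ∀ x : UP F H, ‖S k (π g x) - π g (S k x)‖ ≤ D / Real.sqrt k * ‖x‖ := by
      intro k hk x
      refine denseRange_mk.induction_on
        (p := fun x : UP F H => ‖S k (π g x) - π g (S k x)‖ ≤ D / Real.sqrt k * ‖x‖) x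
        (isClosed_le ?_ ?_) (fun v => ?_)
      · exact (((S k).continuous.comp (π g).continuous).sub
          ((π g).continuous.comp (S k).continuous)).norm
      · exact continuous_const.mul continuous_norm
      · have e1 : S k (π g (mk F H v)) = mk F H (opPre (T k) (hTb k) (isoPre (ρ g) v)) := by
          rw [hS, hπ]
          simp only
          rw [← op_mk]
          congr 1
          exact isoHom_mk _ _
        have e2 : π g (S k (mk F H v)) = mk F H (isoPre (ρ g) (opPre (T k) (hTb k) v)) := by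
          rw [hS, hπ]
          simp only
          rw [op_mk]
          exact isoHom_mk _ _
        rw [e1, e2, ← map_sub]
        refine le_of_tendsto_of_tendsto (tendsto_norm _) ((tendsto_norm v).const_mul _) ?_
        filter_upwards [hD k hk] with i hi
        exact hi _
    rw [← sub_eq_zero, ← inner_self_eq_zero (𝕜 := ℝ)]
    set y := T0 (π g v) - π g (T0 v) with hy
    have h2 : Tendsto (fun k => ⟪S k (π g v) - π g (S k v), y⟫) W0 (𝓝 ⟪y, y⟫) := by
      have h3 := hT0 (π g v) y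
      have h4 := hT0 v (π g⁻¹ y)
      have h5 : ∀ x : UP F H, ⟪π g x, y⟫ = ⟪x, π g⁻¹ y⟫ := by
        intro x
        rw [← (π g).inner_map_map x (π g⁻¹ y), ← symm_eq_inv,
          LinearIsometryEquiv.apply_symm_apply]
      conv => 
        arg 3
        rw [hy, inner_sub_left, ← hy, h5]
      refine (h3.sub h4).congr fun k => ?_
      rw [inner_sub_left, h5]
    have h3 : Tendsto (fun k : ℕ => D / Real.sqrt k * ‖v‖ * ‖y‖) W0 (𝓝 0) := by
      have h4 : Tendsto (fun k : ℕ => D / Real.sqrt k) atTop (𝓝 0) :=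
        Tendsto.div_atTop tendsto_const_nhds
          (Real.tendsto_sqrt_atTop.comp tendsto_natCast_atTop_atTop)
      have h5 := ((h4.mul_const ‖v‖).mul_const ‖y‖).mono_left hW1
      simpa using h5
    have h4 : ⟪y, y⟫ ≤ 0 := by
      refine le_of_tendsto_of_tendsto h2 h3 ?_
      filter_upwards [hW1 (eventually_ge_atTop 1)] with k hk
      exact (real_inner_le_norm _ _).trans (mul_le_mul_of_nonneg_right (h1 k hk v) (norm_nonneg _))
    exact le_antisymm h4 real_inner_self_nonneg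
  -- the Ozawa inequality in the limit
  have hOz' : ∀ g, ∃ D : ℝ, ∀ x, ⟪B g, x⟫ ^ 2 ≤ D * ⟪T0 x, x⟫ := by
    intro g
    obtain ⟨D, hD⟩ := hOz g
    refine ⟨D, fun x => ?_⟩
    have h1 : ∀ k ∈ K0, ∀ x : UP F H,
        ⟪B g, x⟫ ^ 2 ≤ D * (⟪S k x, x⟫ + ‖x‖ ^ 2 / Real.sqrt k) := by
      intro k hk x
      refine denseRange_mk.induction_on
        (p := fun x : UP F H => ⟪B g, x⟫ ^ 2 ≤ D * (⟪S k x, x⟫ + ‖x‖ ^ 2 / Real.sqrt k)) x
        (isClosed_le (by fun_prop) (by fun_prop)) (fun v => ?_)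
      have t1 : Tendsto (fun i => ⟪b g i, v.1 i⟫ ^ 2) F (𝓝 (⟪B g, mk F H v⟫ ^ 2)) :=
        (tendsto_inner (⟨b g, hbB g⟩ : ↥(Bdd F H)) v).pow 2
      have t2 : Tendsto (fun i => D * (⟪T k i (v.1 i), v.1 i⟫ + ‖v.1 i‖ ^ 2 / Real.sqrt k)) F
          (𝓝 (D * (⟪S k (mk F H v), mk F H v⟫ + ‖mk F H v‖ ^ 2 / Real.sqrt k))) :=
        ((tendsto_inner_op (T k) (hTb k) v v).add ((tendsto_norm_sq v).div_const _)).const_mul D
      refine le_of_tendsto_of_tendsto t1 t2 ?_
      filter_upwards [hD k hk] with i hi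
      exact hi _
    have h2 : Tendsto (fun k : ℕ => D * (⟪S k x, x⟫ + ‖x‖ ^ 2 / Real.sqrt k)) W0
        (𝓝 (D * (⟪T0 x, x⟫ + 0))) := by
      refine ((hT0 x x).add ?_).const_mul D
      exact (Tendsto.div_atTop tendsto_const_nhds
          (Real.tendsto_sqrt_atTop.comp tendsto_natCast_atTop_atTop)).mono_left hW1
    rw [add_zero] at h2
    refine ge_of_tendsto h2 ?_
    filter_upwards [hW2] with k hk
    exact h1 k hk x
  have hT0ne : T0 ≠ 0 := by
    intro h0
    obtain ⟨g, hg⟩ := hne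
    obtain ⟨D, hD⟩ := hOz' g
    have h1 := hD (B g)
    rw [h0] at h1
    have h2 : ⟪B g, B g⟫ ^ 2 ≤ 0 := by simpa using h1
    have h3 : ⟪B g, B g⟫ = 0 := pow_eq_zero_iff two_ne_zero |>.1 (le_antisymm h2 (sq_nonneg _))
    have h4 : B g = 0 := inner_self_eq_zero.1 h3
    apply hg
    have h5 := tendsto_norm (⟨b g, hbB g⟩ : ↥(Bdd F H))
    have h6 : mk F H (⟨b g, hbB g⟩ : ↥(Bdd F H)) = 0 := h4
    rw [h6, norm_zero] at h5
    exact h5
  -- the top eigenspace
  obtain ⟨lam, W, hlam, hWfd, hWne, hle, hiff⟩ :=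
    Vale.Agent.P188.SG.top_eigenspace T0 hT0sa hT0pos c (fun m e he => by
      have h1 := hT0tr m e 1 zero_le_one (fun b => by rw [one_mul]; exact bessel he b)
      rwa [one_mul] at h1) hT0ne
  have hWinv : ∀ g, ∀ v ∈ W, π g v ∈ W := by
    intro g v hv
    rw [← hiff, hT0comm, LinearIsometryEquiv.inner_map_map, LinearIsometryEquiv.norm_map]
    exact (hiff v).2 hv
  have := hWfd
  have : Nontrivial W := Submodule.nontrivial_iff_ne_bot.2 hWne
  refine ⟨W, inferInstance, inferInstance, hWfd, inferInstance, restrRep W π hWinv,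
    fun g => ⟨W.starProjection (B g), W.starProjection_apply_mem _⟩, ?_, ?_, ?_, ?_⟩
  · intro g h
    refine Subtype.ext ?_
    rw [Submodule.coe_add, restrRep_coe]
    show W.starProjection (B (g * h)) = W.starProjection (B g) + π g (W.starProjection (B h))
    rw [hBc, map_add, proj_comm W π hWinv]
  · intro g
    exact (Submodule.norm_starProjection_apply_le W (B g)).trans (hBn g)
  · intro g hg
    have h1 : B g = 0 := by
      rw [← map_zero (mk F H)]
      exact mk_eq_of_eventuallyEq hg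
    refine Subtype.ext ?_
    show W.starProjection (B g) = 0
    rw [h1, map_zero]
  · -- uniform lower bound at a standard `k`
    have hk0 : ∃ k0, 1 ≤ k0 ∧ ∀ u : UP F H, u ∈ W → ‖u‖ = 1 → lam / 2 ≤ ⟪S k0 u, u⟫ := by
      set ob := stdOrthonormalBasis ℝ W with hob
      have h1 : Tendsto (fun k => ∑ i, ∑ j,
          |⟪S k (ob i : UP F H), (ob j : UP F H)⟫ - ⟪T0 (ob i : UP F H), (ob j : UP F H)⟫|)
          W0 (𝓝 (∑ i, ∑ j, |⟪T0 (ob i : UP F H), (ob j : UP F H)⟫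
            - ⟪T0 (ob i : UP F H), (ob j : UP F H)⟫|)) :=
        tendsto_finsetSum _ fun i _ => tendsto_finsetSum _ fun j _ =>
          ((hT0 _ _).sub_const _).abs
      have h2 : (∑ i, ∑ j, |⟪T0 (ob i : UP F H), (ob j : UP F H)⟫
            - ⟪T0 (ob i : UP F H), (ob j : UP F H)⟫|) = 0 := by simp
      rw [h2] at h1
      have h3 : (0 : ℝ) < lam / 2 := by positivity
      obtain ⟨k, hk, hk1⟩ := ((h1.eventually_lt_const h3).and
        (hW1 (eventually_ge_atTop 1))).exists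
      refine ⟨k, hk1, fun u hu hu1 => ?_⟩
      have h4 : u = ∑ i, (ob.repr ⟨u, hu⟩ i) • (ob i : UP F H) := by
        have h5 := congrArg (fun x : W => (x : UP F H)) (ob.sum_repr ⟨u, hu⟩)
        simp only [Submodule.coe_sum, Submodule.coe_smul] at h5
        exact h5.symm
      have ha : ∀ i, |ob.repr ⟨u, hu⟩ i| ≤ 1 := by
        intro i
        rw [ob.repr_apply_apply]
        refine (abs_real_inner_le_norm _ _).trans ?_
        rw [ob.norm_eq_one, one_mul]
        exact hu1.le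
      set a := fun i => ob.repr ⟨u, hu⟩ i with haa
      have hexp : ∀ A : UP F H →L[ℝ] UP F H, ⟪A u, u⟫ =
          ∑ i, ∑ j, a i * a j * ⟪A (ob i : UP F H), (ob j : UP F H)⟫ := by
        intro A
        conv_lhs => rw [h4]
        rw [map_sum, sum_inner]
        refine Finset.sum_congr rfl fun i _ => ?_
        rw [inner_sum]
        refine Finset.sum_congr rfl fun j _ => ?_
        rw [map_smul, real_inner_smul_left, real_inner_smul_right]
        ring
      have h5 : ⟪T0 u, u⟫ = lam := by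
        rw [(hiff u).2 hu, hu1]
        ring
      have h6 : ⟪T0 u, u⟫ - ⟪S k u, u⟫ ≤ ∑ i, ∑ j,
          |⟪S k (ob i : UP F H), (ob j : UP F H)⟫ - ⟪T0 (ob i : UP F H), (ob j : UP F H)⟫| := by
        rw [hexp T0, hexp (S k), ← Finset.sum_sub_distrib]
        refine Finset.sum_le_sum fun i _ => ?_
        rw [← Finset.sum_sub_distrib]
        refine Finset.sum_le_sum fun j _ => ?_
        rw [← mul_sub, abs_sub_comm]
        refine (le_abs_self _).trans ?_
        rw [abs_mul, abs_mul]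
        have := ha i
        have := ha j
        have h7 : |a i| * |a j| ≤ 1 := mul_le_one₀ (ha i) (abs_nonneg _) (ha j)
        calc _ ≤ 1 * _ := mul_le_mul_of_nonneg_right h7 (abs_nonneg _)
          _ = _ := one_mul _
      linarith
    obtain ⟨k0, hk01, hk0⟩ := hk0
    obtain ⟨J, hJ⟩ := hsel k0 hk01
    obtain ⟨e, he, hJe⟩ := hJ (lam / 4) (by positivity)
    refine ⟨J, e / 2, by positivity, fun u hu => ?_⟩
    have hopen : IsOpen {x : UP F H | ‖x‖ < 2 ∧ lam / 4 < ⟪S k0 x, x⟫ ∧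
        |C * (1 + J)| * ‖x - (u : UP F H)‖ < e / 2} := by
      have o1 : IsOpen {x : UP F H | ‖x‖ < 2} := isOpen_lt (by fun_prop) (by fun_prop)
      have o2 : IsOpen {x : UP F H | lam / 4 < ⟪S k0 x, x⟫} :=
        isOpen_lt (by fun_prop) (by fun_prop)
      have o3 : IsOpen {x : UP F H | |C * (1 + J)| * ‖x - (u : UP F H)‖ < e / 2} :=
        isOpen_lt (by fun_prop) (by fun_prop)
      exact o1.inter (o2.inter o3)
    have hu' : ‖(u : UP F H)‖ = 1 := hu
    obtain ⟨v, hv1, hv2, hv3⟩ := denseRange_mk.exists_mem_open hopen ⟨(u : UP F H), by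
      rw [hu']; norm_num, by
      have := hk0 u u.2 hu'
      linarith, by
      rw [sub_self, norm_zero, mul_zero]; positivity⟩
    obtain ⟨g, hgJ, hg⟩ := hJe v.1 (by
      have t1 := (tendsto_norm v).eventually_lt_const hv1
      have t2 := (tendsto_inner_op (T k0) (hTb k0) v v).eventually_const_lt hv2
      filter_upwards [t1, t2] with i h1 h2
      exact ⟨h1.le, h2.le⟩)
    refine ⟨g, hgJ, ?_⟩
    have h1 : e ≤ ⟪B g, mk F H v⟫ :=
      ge_of_tendsto (tendsto_inner (⟨b g, hbB g⟩ : ↥(Bdd F H)) v) hg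
    have h2 : ⟪B g, mk F H v⟫ = ⟪B g, (u : UP F H)⟫ + ⟪B g, mk F H v - (u : UP F H)⟫ := by
      rw [← inner_add_right]
      congr 1
      abel
    have h3 : ⟪B g, mk F H v - (u : UP F H)⟫ ≤ e / 2 := by
      refine (real_inner_le_norm _ _).trans (le_trans ?_ hv3.le)
      refine mul_le_mul_of_nonneg_right ((hBn g).trans (le_trans ?_ (le_abs_self _)))
        (norm_nonneg _)
      exact mul_le_mul_of_nonneg_left (by linarith) hC
    have h4 : ⟪(⟨W.starProjection (B g), W.starProjection_apply_mem _⟩ : W), u⟫ =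
        ⟪B g, (u : UP F H)⟫ := by
      show ⟪W.starProjection (B g), (u : UP F H)⟫ = _
      have h5 := W.starProjection_inner_eq_zero (B g) u u.2
      rw [inner_sub_left, sub_eq_zero] at h5
      exact h5.symm
    rw [h4]
    linarith

end main

end Vale.Agent.P151.R3.H362
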