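import Mathlib

/-!
# P151, R3, block H: ultraproducts of real inner product spaces

`UP F H` is the completion of the space of families `v : ∀ i, H i`, bounded along the ultrafilter
`F`, with the inner product `lim_F ⟪v i, w i⟫`.
-/

universe u v

open Filter Topology
open scoped RealInnerProductSpace

namespace Vale.Agent.P151.R3.H362

section lim

variable {I : Type u} (F : Ultrafilter I)

/-- The limit of a real function along an ultrafilter. -/
noncomputable def ul (f : I → ℝ) : ℝ := limUnder (F : Filter I) f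

theorem tendsto_ul {f : I → ℝ} (h : ∃ C : ℝ, ∀ᶠ i in (F : Filter I), |f i| ≤ C) :
    Tendsto f F (𝓝 (ul F f)) := by
  obtain ⟨C, h⟩ := h
  have h1 : ((F.map f : Ultrafilter ℝ) : Filter ℝ) ≤ 𝓟 (Set.Icc (-C) C) := by
    rw [Ultrafilter.coe_map, le_principal_iff, mem_map]
    filter_upwards [h] with i hi
    exact abs_le.1 hi
  obtain ⟨x, _, hx⟩ := isCompact_Icc.ultrafilter_le_nhds (F.map f) h1
  exact tendsto_nhds_limUnder ⟨x, hx⟩

theorem ul_eq {f : I → ℝ} {a : ℝ} (h : Tendsto f F (𝓝 a)) : ul F f = a :=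
  h.limUnder_eq

end lim

section space

variable {I : Type u} (F : Ultrafilter I) (H : I → Type v) [∀ i, NormedAddCommGroup (H i)]
  [∀ i, InnerProductSpace ℝ (H i)]

/-- Families which are bounded along the ultrafilter. -/
def Bdd : Submodule ℝ (∀ i, H i) where
  carrier := {v | ∃ C : ℝ, ∀ᶠ i in (F : Filter I), ‖v i‖ ≤ C}
  add_mem' := by
    rintro v w ⟨C, hC⟩ ⟨D, hD⟩
    refine ⟨C + D, ?_⟩
    filter_upwards [hC, hD] with i h1 h2
    exact (norm_add_le _ _).trans (add_le_add h1 h2)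
  zero_mem' := ⟨0, by simp⟩
  smul_mem' := by
    rintro c v ⟨C, hC⟩
    refine ⟨|c| * C, ?_⟩
    filter_upwards [hC] with i h1
    rw [Pi.smul_apply, norm_smul, Real.norm_eq_abs]
    exact mul_le_mul_of_nonneg_left h1 (abs_nonneg c)

theorem mem_Bdd {v : ∀ i, H i} : v ∈ Bdd F H ↔ ∃ C : ℝ, ∀ᶠ i in (F : Filter I), ‖v i‖ ≤ C :=
  Iff.rfl

/-- The pre-Hilbert space of bounded families. -/
structure UPre where
  /-- the family -/
  val : ↥(Bdd F H)

variable {F H}

theorem UPre.ext' {v w : UPre F H} (h : v.val = w.val) : v = w := by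
  cases v; cases w; congr

noncomputable instance : Add (UPre F H) := ⟨fun v w => ⟨v.val + w.val⟩⟩
noncomputable instance : Zero (UPre F H) := ⟨⟨0⟩⟩
noncomputable instance : Neg (UPre F H) := ⟨fun v => ⟨-v.val⟩⟩
noncomputable instance : Sub (UPre F H) := ⟨fun v w => ⟨v.val - w.val⟩⟩
noncomputable instance {S : Type*} [SMul S ↥(Bdd F H)] : SMul S (UPre F H) :=
  ⟨fun c v => ⟨c • v.val⟩⟩

theorem UPre.val_injective : Function.Injective (UPre.val : UPre F H → ↥(Bdd F H)) :=
  fun _ _ h => UPre.ext' h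

noncomputable instance : AddCommGroup (UPre F H) :=
  UPre.val_injective.addCommGroup _ rfl (fun _ _ => rfl) (fun _ => rfl) (fun _ _ => rfl)
    (fun _ _ => rfl) (fun _ _ => rfl)

/-- `val` as an additive homomorphism. -/
def UPre.valHom : UPre F H →+ ↥(Bdd F H) where
  toFun := UPre.val
  map_zero' := rfl
  map_add' _ _ := rfl

noncomputable instance : Module ℝ (UPre F H) :=
  UPre.val_injective.module ℝ UPre.valHom (fun _ _ => rfl)

/-- The component of an element. -/
def UPre.app (v : UPre F H) (i : I) : H i := v.val.1 i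

theorem UPre.app_add (v w : UPre F H) (i : I) : (v + w).app i = v.app i + w.app i := rfl

theorem UPre.app_smul (c : ℝ) (v : UPre F H) (i : I) : (c • v).app i = c • v.app i := rfl

theorem UPre.bdd (v : UPre F H) : ∃ C : ℝ, ∀ᶠ i in (F : Filter I), ‖v.app i‖ ≤ C := v.val.2

theorem inner_bdd {v w : ∀ i, H i} (hv : v ∈ Bdd F H) (hw : w ∈ Bdd F H) :
    ∃ C : ℝ, ∀ᶠ i in (F : Filter I), |⟪v i, w i⟫| ≤ C := by
  obtain ⟨C, hC⟩ := hv
  obtain ⟨D, hD⟩ := hw
  refine ⟨C * D, ?_⟩
  filter_upwards [hC, hD] with i h1 h2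
  exact (abs_real_inner_le_norm _ _).trans
    (mul_le_mul h1 h2 (norm_nonneg _) ((norm_nonneg _).trans h1))

noncomputable instance instCore : PreInnerProductSpace.Core ℝ (UPre F H) where
  inner v w := ul F (fun i => ⟪v.app i, w.app i⟫)
  conj_inner_symm v w := by
    simp only [conj_trivial]
    congr 1
    funext i
    exact real_inner_comm _ _
  re_inner_nonneg v := by
    have h := tendsto_ul F (inner_bdd v.bdd v.bdd)
    exact ge_of_tendsto h (Eventually.of_forall fun i => real_inner_self_nonneg)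
  add_left v w x := by
    refine ul_eq F ?_
    have h1 := tendsto_ul F (inner_bdd v.bdd x.bdd)
    have h2 := tendsto_ul F (inner_bdd w.bdd x.bdd)
    refine (h1.add h2).congr fun i => ?_
    rw [UPre.app_add, inner_add_left]
  smul_left v w c := by
    refine ul_eq F ?_
    have h1 := tendsto_ul F (inner_bdd v.bdd w.bdd)
    refine (h1.const_mul c).congr fun i => ?_
    rw [UPre.app_smul, real_inner_smul_left]

noncomputable instance : SeminormedAddCommGroup (UPre F H) :=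
  InnerProductSpace.Core.toSeminormedAddCommGroup (𝕜 := ℝ)

noncomputable instance : InnerProductSpace ℝ (UPre F H) := .ofCore _

theorem UPre.inner_def (v w : UPre F H) : ⟪v, w⟫ = ul F (fun i => ⟪v.app i, w.app i⟫) := rfl

variable (F H) in
/-- The ultraproduct Hilbert space. -/
def UP : Type (max u v) := UniformSpace.Completion (UPre F H)

noncomputable instance : NormedAddCommGroup (UP F H) :=
  inferInstanceAs (NormedAddCommGroup (UniformSpace.Completion (UPre F H)))

noncomputable instance : InnerProductSpace ℝ (UP F H) :=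
  inferInstanceAs (InnerProductSpace ℝ (UniformSpace.Completion (UPre F H)))

instance : CompleteSpace (UP F H) :=
  inferInstanceAs (CompleteSpace (UniformSpace.Completion (UPre F H)))

variable (F H) in
/-- The class of a bounded family. -/
noncomputable def mk : ↥(Bdd F H) →ₗ[ℝ] UP F H where
  toFun v := UniformSpace.Completion.coe' (⟨v⟩ : UPre F H)
  map_add' v w := UniformSpace.Completion.coe_add (⟨v⟩ : UPre F H) ⟨w⟩
  map_smul' c v := UniformSpace.Completion.coe_smul c (⟨v⟩ : UPre F H)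

theorem denseRange_mk : DenseRange (mk F H) := by
  have h := UniformSpace.Completion.denseRange_coe (α := UPre F H)
  intro x
  have := h x
  refine closure_mono ?_ this
  rintro _ ⟨⟨v⟩, rfl⟩
  exact ⟨v, rfl⟩

theorem tendsto_inner (v w : ↥(Bdd F H)) :
    Tendsto (fun i => ⟪v.1 i, w.1 i⟫) F (𝓝 ⟪mk F H v, mk F H w⟫) := by
  have h := tendsto_ul F (inner_bdd v.2 w.2)
  have h2 : ⟪mk F H v, mk F H w⟫ = ul F (fun i => ⟪v.1 i, w.1 i⟫) :=
    UniformSpace.Completion.inner_coe (⟨v⟩ : UPre F H) ⟨w⟩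
  rw [h2]
  exact h

attribute [irreducible] UP mk

theorem tendsto_norm_sq (v : ↥(Bdd F H)) :
    Tendsto (fun i => ‖v.1 i‖ ^ 2) F (𝓝 (‖mk F H v‖ ^ 2)) := by
  have h := tendsto_inner v v
  rw [real_inner_self_eq_norm_sq] at h
  refine h.congr fun i => ?_
  rw [real_inner_self_eq_norm_sq]

theorem tendsto_norm (v : ↥(Bdd F H)) :
    Tendsto (fun i => ‖v.1 i‖) F (𝓝 ‖mk F H v‖) := by
  have h := (Real.continuous_sqrt.tendsto _).comp (tendsto_norm_sq v)
  rw [Real.sqrt_sq (norm_nonneg _)] at h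
  refine h.congr fun i => ?_
  rw [Function.comp_apply, Real.sqrt_sq (norm_nonneg _)]

theorem norm_mk_le (v : ↥(Bdd F H)) {C : ℝ} (h : ∀ᶠ i in (F : Filter I), ‖v.1 i‖ ≤ C) :
    ‖mk F H v‖ ≤ C :=
  le_of_tendsto (tendsto_norm v) h

theorem mk_eq_of_eventuallyEq {v w : ↥(Bdd F H)}
    (h : ∀ᶠ i in (F : Filter I), v.1 i = w.1 i) : mk F H v = mk F H w := by
  rw [← sub_eq_zero, ← map_sub, ← norm_le_zero_iff]
  refine norm_mk_le _ ?_
  filter_upwards [h] with i hi
  show ‖v.1 i - w.1 i‖ ≤ 0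
  rw [hi, sub_self, norm_zero]

theorem mk_eq_of_tendsto {v w : ↥(Bdd F H)}
    (h : Tendsto (fun i => ‖v.1 i - w.1 i‖) F (𝓝 0)) : mk F H v = mk F H w := by
  rw [← sub_eq_zero, ← map_sub, ← norm_le_zero_iff]
  exact le_of_eq (tendsto_nhds_unique (tendsto_norm (v - w)) h)

end space

section op

variable {I : Type u} {F : Ultrafilter I} {H : I → Type v} [∀ i, NormedAddCommGroup (H i)]
  [∀ i, InnerProductSpace ℝ (H i)]

variable (F) in
/-- A family of linear maps which is bounded along `F`. -/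
def BddOp (T : ∀ i, H i →ₗ[ℝ] H i) : Prop :=
  ∃ C : ℝ, 0 ≤ C ∧ ∀ᶠ i in (F : Filter I), ∀ x, ‖T i x‖ ≤ C * ‖x‖

/-- The operator on bounded families. -/
def opPre (T : ∀ i, H i →ₗ[ℝ] H i) (hT : BddOp F T) : ↥(Bdd F H) →ₗ[ℝ] ↥(Bdd F H) where
  toFun v := ⟨fun i => T i (v.1 i), by
    obtain ⟨C, hC0, hC⟩ := hT
    obtain ⟨D, hD⟩ := v.2
    refine ⟨C * D, ?_⟩
    filter_upwards [hC, hD] with i h1 h2
    exact (h1 _).trans (mul_le_mul_of_nonneg_left h2 hC0)⟩
  map_add' v w := Subtype.ext (funext fun i => map_add (T i) _ _)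
  map_smul' c v := Subtype.ext (funext fun i => map_smul (T i) _ _)

theorem op_bound (T : ∀ i, H i →ₗ[ℝ] H i) (hT : BddOp F T) {C : ℝ}
    (h : ∀ᶠ i in (F : Filter I), ∀ x, ‖T i x‖ ≤ C * ‖x‖) (v : ↥(Bdd F H)) :
    ‖((mk F H) ∘ₗ opPre T hT) v‖ ≤ C * ‖mk F H v‖ := by
  have h1 := tendsto_norm (opPre T hT v)
  have h2 := (tendsto_norm v).const_mul C
  refine le_of_tendsto_of_tendsto h1 h2 ?_
  filter_upwards [h] with i hi
  exact hi _

theorem exists_ext {B : Type u} {E : Type v} [AddCommGroup B] [Module ℝ B]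
    [NormedAddCommGroup E] [InnerProductSpace ℝ E] [CompleteSpace E] (m : B →ₗ[ℝ] E)
    (hm : DenseRange m) (f : B →ₗ[ℝ] E) (hf : ∃ C, ∀ x, ‖f x‖ ≤ C * ‖m x‖) :
    ∃ T : E →L[ℝ] E, ∀ b, T (m b) = f b :=
  ⟨f.extendOfNorm m, fun b => LinearMap.extendOfNorm_eq hm hf b⟩

theorem exists_op (T : ∀ i, H i →ₗ[ℝ] H i) (hT : BddOp F T) :
    ∃ S : UP F H →L[ℝ] UP F H, ∀ v, S (mk F H v) = mk F H (opPre T hT v) := by
  refine exists_ext (mk F H) denseRange_mk ((mk F H) ∘ₗ opPre T hT) ?_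
  obtain ⟨C, hC0, hC⟩ := id hT
  exact ⟨C, fun x => op_bound T hT hC x⟩

/-- The operator on the ultraproduct given by a bounded family of operators. -/
noncomputable def op (T : ∀ i, H i →ₗ[ℝ] H i) (hT : BddOp F T) : UP F H →L[ℝ] UP F H :=
  (exists_op T hT).choose

theorem op_mk (T : ∀ i, H i →ₗ[ℝ] H i) (hT : BddOp F T) (v : ↥(Bdd F H)) :
    op T hT (mk F H v) = mk F H (opPre T hT v) :=
  (exists_op T hT).choose_spec v

theorem norm_op_apply_le (T : ∀ i, H i →ₗ[ℝ] H i) (hT : BddOp F T) {C : ℝ}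
    (h : ∀ᶠ i in (F : Filter I), ∀ x, ‖T i x‖ ≤ C * ‖x‖) (x : UP F H) :
    ‖op T hT x‖ ≤ C * ‖x‖ := by
  refine denseRange_mk.induction_on (p := fun x => ‖op T hT x‖ ≤ C * ‖x‖) x
    (isClosed_le (by fun_prop) (by fun_prop)) (fun v => ?_)
  rw [op_mk]
  exact op_bound T hT h v

theorem tendsto_inner_op (T : ∀ i, H i →ₗ[ℝ] H i) (hT : BddOp F T) (v w : ↥(Bdd F H)) :
    Tendsto (fun i => ⟪T i (v.1 i), w.1 i⟫) F (𝓝 ⟪op T hT (mk F H v), mk F H w⟫) := by
  rw [op_mk]
  exact tendsto_inner _ _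

theorem op_symm (T : ∀ i, H i →ₗ[ℝ] H i) (hT : BddOp F T)
    (h : ∀ᶠ i in (F : Filter I), ∀ x y, ⟪T i x, y⟫ = ⟪x, T i y⟫) (x y : UP F H) :
    ⟪op T hT x, y⟫ = ⟪x, op T hT y⟫ := by
  refine denseRange_mk.induction_on₂ (p := fun x y => ⟪op T hT x, y⟫ = ⟪x, op T hT y⟫)
    (isClosed_eq (by fun_prop) (by fun_prop)) (fun v w => ?_) x y
  have h1 := tendsto_inner_op T hT v w
  have h2 := tendsto_inner_op T hT w v
  rw [← real_inner_comm (mk F H v) (op T hT (mk F H w))] 
  refine tendsto_nhds_unique_of_eventuallyEq h1 h2 ?_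
  filter_upwards [h] with i hi
  rw [hi, real_inner_comm]

theorem op_nonneg (T : ∀ i, H i →ₗ[ℝ] H i) (hT : BddOp F T)
    (h : ∀ᶠ i in (F : Filter I), ∀ x, 0 ≤ ⟪T i x, x⟫) (x : UP F H) :
    0 ≤ ⟪op T hT x, x⟫ := by
  refine denseRange_mk.induction_on (p := fun x => 0 ≤ ⟪op T hT x, x⟫) x
    (isClosed_le (by fun_prop) (by fun_prop)) (fun v => ?_)
  refine ge_of_tendsto (tendsto_inner_op T hT v v) ?_
  filter_upwards [h] with i hi
  exact hi _

/-- The isometries of the ultraproduct given by families of isometries. -/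
noncomputable def iso (U : ∀ i, H i ≃ₗᵢ[ℝ] H i) : UP F H ≃ₗᵢ[ℝ] UP F H :=
  have hU : ∀ V : (∀ i, H i ≃ₗᵢ[ℝ] H i),
      BddOp F (fun i => ((V i).toLinearEquiv : H i →ₗ[ℝ] H i)) := fun V =>
    ⟨1, zero_le_one, Eventually.of_forall fun i x => by
      rw [one_mul]; exact le_of_eq ((V i).norm_map x)⟩
  have hinv : ∀ V : (∀ i, H i ≃ₗᵢ[ℝ] H i), ∀ x : UP F H,
      op (fun i => (((V i).symm).toLinearEquiv : H i →ₗ[ℝ] H i)) (hU fun i => (V i).symm)
        (op (fun i => ((V i).toLinearEquiv : H i →ₗ[ℝ] H i)) (hU V) x) = x := fun V x => by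
    refine denseRange_mk.induction_on (p := fun x =>
      op (fun i => (((V i).symm).toLinearEquiv : H i →ₗ[ℝ] H i)) (hU fun i => (V i).symm)
        (op (fun i => ((V i).toLinearEquiv : H i →ₗ[ℝ] H i)) (hU V) x) = x) x
      (isClosed_eq (by fun_prop) (by fun_prop)) (fun v => ?_)
    rw [op_mk, op_mk]
    congr 1
    exact Subtype.ext (funext fun i => (V i).symm_apply_apply _)
  { toFun := op (fun i => ((U i).toLinearEquiv : H i →ₗ[ℝ] H i)) (hU U)
    map_add' := map_add _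
    map_smul' := map_smul _
    invFun := op (fun i => (((U i).symm).toLinearEquiv : H i →ₗ[ℝ] H i)) (hU fun i => (U i).symm)
    left_inv := hinv U
    right_inv := hinv fun i => (U i).symm
    norm_map' := fun x => by
      refine denseRange_mk.induction_on (p := fun x =>
        ‖op (fun i => ((U i).toLinearEquiv : H i →ₗ[ℝ] H i)) (hU U) x‖ = ‖x‖) x
        (isClosed_eq (by fun_prop) (by fun_prop)) (fun v => ?_)
      rw [op_mk]
      refine tendsto_nhds_unique (tendsto_norm _) ((tendsto_norm v).congr fun i => ?_)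
      exact ((U i).norm_map _).symm }

/-- The family `i ↦ U i (v i)`. -/
def isoPre (U : ∀ i, H i ≃ₗᵢ[ℝ] H i) (v : ↥(Bdd F H)) : ↥(Bdd F H) :=
  ⟨fun i => U i (v.1 i), by
    obtain ⟨D, hD⟩ := v.2
    refine ⟨D, ?_⟩
    filter_upwards [hD] with i h2
    rwa [(U i).norm_map]⟩

theorem iso_mk (U : ∀ i, H i ≃ₗᵢ[ℝ] H i) (v : ↥(Bdd F H)) :
    iso U (mk F H v) = mk F H (isoPre U v) :=
  op_mk _ _ v

theorem iso_mul (U V : ∀ i, H i ≃ₗᵢ[ℝ] H i) (x : UP F H) :
    iso (F := F) (fun i => U i * V i) x = iso U (iso V x) := by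
  refine denseRange_mk.induction_on
    (p := fun x : UP F H => iso (F := F) (fun i => U i * V i) x = iso U (iso V x)) x
    (isClosed_eq (LinearIsometryEquiv.continuous _)
      ((LinearIsometryEquiv.continuous _).comp (LinearIsometryEquiv.continuous _)))
    (fun v => ?_)
  rw [iso_mk, iso_mk, iso_mk]
  rfl

variable (F H) in
/-- The representation of the group of families of isometries. -/
noncomputable def isoHom : (∀ i, H i ≃ₗᵢ[ℝ] H i) →* (UP F H ≃ₗᵢ[ℝ] UP F H) :=
  MonoidHom.mk' iso fun U V => LinearIsometryEquiv.ext fun x => iso_mul U V x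

theorem isoHom_mk (U : ∀ i, H i ≃ₗᵢ[ℝ] H i) (v : ↥(Bdd F H)) :
    isoHom F H U (mk F H v) = mk F H (isoPre U v) := iso_mk U v

end op

end Vale.Agent.P151.R3.H362
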