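import Vale.Agent.P188.SG.Trace
import Vale.Agent.P151.R3.H362.UP

/-!
# P151, R3, block H: carriers of positive operators of bounded trace
-/

universe u v

open Filter Topology
open scoped RealInnerProductSpace

namespace Vale.Agent.P151.R3.H362

/-- Bounded trace of a positive form, in the form which is stable under projections and limits. -/
def TrB {V : Type v} [NormedAddCommGroup V] [InnerProductSpace ℝ V] (q : V → ℝ) (c : ℝ) : Prop :=
  ∀ (m : ℕ) (x : Fin m → V) (κ : ℝ), 0 ≤ κ → (∀ b, ∑ j, ⟪x j, b⟫ ^ 2 ≤ κ * ‖b‖ ^ 2) →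
    ∑ j, q (x j) ≤ κ * c

section carrier

variable {V : Type v} [NormedAddCommGroup V] [InnerProductSpace ℝ V]

theorem bessel {m : ℕ} {e : Fin m → V} (he : Orthonormal ℝ e) (b : V) :
    ∑ j, ⟪e j, b⟫ ^ 2 ≤ ‖b‖ ^ 2 := by
  have h := he.sum_inner_products_le (s := Finset.univ) b
  simpa using h

/-- Cauchy-Schwarz for a positive operator. -/
theorem cs_form (B : V →L[ℝ] V) (hsa : ∀ v w : V, ⟪B v, w⟫ = ⟪v, B w⟫)
    (hpos : ∀ v : V, 0 ≤ ⟪B v, v⟫) (v w : V) : ⟪B v, w⟫ ^ 2 ≤ ⟪B v, v⟫ * ⟪B w, w⟫ := by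
  have h1 : ∀ x : ℝ, 0 ≤ ⟪B v, v⟫ * (x * x) + (2 * ⟪B v, w⟫) * x + ⟪B w, w⟫ := by
    intro x
    have h2 := hpos (x • v + w)
    have h3 : ⟪B w, v⟫ = ⟪B v, w⟫ := by rw [hsa w v, real_inner_comm]
    simp only [map_add, map_smul, inner_add_left, inner_add_right, inner_smul_left,
      inner_smul_right, h3, conj_trivial] at h2
    linarith
  have h2 := discrim_le_zero h1
  rw [discrim] at h2
  nlinarith

theorem eigen_of_max (B : V →L[ℝ] V) (hsa : ∀ v w : V, ⟪B v, w⟫ = ⟪v, B w⟫) (lam : ℝ)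
    (hle : ∀ v, ⟪B v, v⟫ ≤ lam * ‖v‖ ^ 2) {w : V} (hw : ⟪B w, w⟫ = lam * ‖w‖ ^ 2) :
    B w = lam • w := by
  set A : V →L[ℝ] V := lam • ContinuousLinearMap.id ℝ V - B with hA
  have hAv : ∀ v, A v = lam • v - B v := fun v => by
    rw [hA]; simp
  have h1 := cs_form A (fun v w => by
    rw [hAv, hAv, inner_sub_left, inner_sub_right, real_inner_smul_left, real_inner_smul_right,
      hsa]) (fun v => by
    rw [hAv, inner_sub_left, real_inner_smul_left, real_inner_self_eq_norm_sq]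
    have := hle v
    linarith) w (A w)
  have h2 : ⟪A w, w⟫ = 0 := by
    rw [hAv, inner_sub_left, real_inner_smul_left, real_inner_self_eq_norm_sq, hw, sub_self]
  rw [h2, zero_mul, real_inner_self_eq_norm_sq] at h1
  have h3 : ‖A w‖ = 0 := by
    have h4 : (‖A w‖ ^ 2) ^ 2 = 0 := le_antisymm h1 (sq_nonneg _)
    exact pow_eq_zero_iff two_ne_zero |>.1 (pow_eq_zero_iff two_ne_zero |>.1 h4)
  have h4 := norm_eq_zero.1 h3
  rw [hAv, sub_eq_zero] at h4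
  exact h4.symm

variable [CompleteSpace V]

/-- Good subspaces: finite-dimensional, invariant under `S` and `T`, with `T` bounded below. -/
def Good (T : V →L[ℝ] V) (S : Set (V ≃ₗᵢ[ℝ] V)) (E : Submodule ℝ V) : Prop :=
  FiniteDimensional ℝ E ∧ (∀ U ∈ S, ∀ v ∈ E, U v ∈ E) ∧ (∀ v ∈ E, T v ∈ E) ∧
    ∃ lam : ℝ, 0 < lam ∧ ∀ v ∈ E, lam * ‖v‖ ^ 2 ≤ ⟪T v, v⟫

theorem good_extend (T : V →L[ℝ] V) (hsa : ∀ v w : V, ⟪T v, w⟫ = ⟪v, T w⟫)
    (hpos : ∀ v : V, 0 ≤ ⟪T v, v⟫) (c : ℝ) (htr : TrB (fun v => ⟪T v, v⟫) c)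
    (S : Set (V ≃ₗᵢ[ℝ] V)) (hS : ∀ U ∈ S, ∀ v, T (U v) = U (T v))
    (hSi : ∀ U ∈ S, U.symm ∈ S) {E : Submodule ℝ V} (hE : Good T S E)
    (hne : ∃ v ∈ Eᗮ, T v ≠ 0) :
    ∃ E' : Submodule ℝ V, Good T S E' ∧ Module.finrank ℝ E < Module.finrank ℝ E' := by
  obtain ⟨hfd, hU, hT, lam, hlam, hlow⟩ := hE
  obtain ⟨v₀, hv₀, hTv₀⟩ := hne
  set P : V →L[ℝ] V := Eᗮ.starProjection with hP
  have hPmem : ∀ v, P v ∈ Eᗮ := fun v => by
    rw [hP]; exact Submodule.starProjection_apply_mem _ _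
  have hPfix : ∀ v ∈ Eᗮ, P v = v := fun v hv => by
    rw [hP]; exact Submodule.starProjection_eq_self_iff.2 hv
  have hPsa : ∀ v w, ⟪P v, w⟫ = ⟪v, P w⟫ := fun v w => by
    rw [hP]; exact Submodule.inner_starProjection_left_eq_right _ _ _
  have hTperp : ∀ v ∈ Eᗮ, T v ∈ Eᗮ := by
    intro v hv
    rw [Submodule.mem_orthogonal]
    intro e he
    rw [← hsa]
    exact (Submodule.mem_orthogonal E v).1 hv _ (hT e he)
  have hUperp : ∀ U ∈ S, ∀ v ∈ Eᗮ, U v ∈ Eᗮ := by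
    intro U hUS v hv
    rw [Submodule.mem_orthogonal]
    intro e he
    have h1 : ⟪e, U v⟫ = ⟪U.symm e, v⟫ := by
      rw [← U.inner_map_map (U.symm e) v, U.apply_symm_apply]
    rw [h1]
    exact (Submodule.mem_orthogonal E v).1 hv _ (hU _ (hSi U hUS) e he)
  set T' : V →L[ℝ] V := P.comp (T.comp P) with hT'
  have hT'v : ∀ v, T' v = P (T (P v)) := fun v => rfl
  have hT'eq : ∀ v ∈ Eᗮ, T' v = T v := fun v hv => by
    rw [hT'v, hPfix v hv, hPfix _ (hTperp v hv)]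
  have hT'sa : ∀ v w : V, ⟪T' v, w⟫ = ⟪v, T' w⟫ := fun v w => by
    rw [hT'v, hT'v, hPsa, hsa, hPsa]
  have hT'q : ∀ v, ⟪T' v, v⟫ = ⟪T (P v), P v⟫ := fun v => by
    rw [hT'v, hPsa]
  have hT'pos : ∀ v : V, 0 ≤ ⟪T' v, v⟫ := fun v => by
    rw [hT'q]; exact hpos _
  have hPn : ∀ v, ‖P v‖ ≤ ‖v‖ := fun v => by
    rw [hP]; exact Submodule.norm_starProjection_apply_le _ _
  have hT'ne : T' ≠ 0 := by
    intro h
    apply hTv₀
    rw [← hT'eq v₀ hv₀, h]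
    rfl
  have hT'tr : ∀ (m : ℕ) (e : Fin m → V), Orthonormal ℝ e → ∑ i, ⟪T' (e i), e i⟫ ≤ c := by
    intro m e he
    have h1 := htr m (fun i => P (e i)) 1 zero_le_one (fun b => by
      have h2 : ∀ j, ⟪P (e j), b⟫ = ⟪e j, P b⟫ := fun j => hPsa _ _
      simp only [h2]
      refine (bessel he (P b)).trans ?_
      have := hPn b
      have := norm_nonneg (P b)
      rw [one_mul]
      gcongr)
    rw [one_mul] at h1
    simpa only [hT'q] using h1
  obtain ⟨lam', W, hlam', hWfd, hW0, hle, hiff⟩ :=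
    Vale.Agent.P188.SG.top_eigenspace T' hT'sa hT'pos c hT'tr hT'ne
  have hWperp : ∀ w ∈ W, w ∈ Eᗮ := by
    intro w hw
    have h1 := (hiff w).2 hw
    have h2 := hle (P w)
    rw [hT'q, hPfix _ (hPmem w), ← hT'q, h1] at h2
    have h3 : ‖w‖ ^ 2 ≤ ‖P w‖ ^ 2 := le_of_mul_le_mul_left h2 hlam'
    have h4 : ‖w - P w‖ ^ 2 ≤ 0 := by
      rw [norm_sub_sq_real]
      have h5 : ⟪w, P w⟫ = ‖P w‖ ^ 2 := by
        rw [← hPfix _ (hPmem w), ← hPsa, hPfix _ (hPmem w), real_inner_self_eq_norm_sq]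
      rw [h5]
      have h6 : ‖P w‖ ^ 2 ≤ ‖w‖ ^ 2 := by
        have := hPn w
        have := norm_nonneg (P w)
        gcongr
      linarith
    have h5 : w = P w := by
      have h6 : ‖w - P w‖ = 0 := by
        have := norm_nonneg (w - P w)
        nlinarith
      exact sub_eq_zero.1 (norm_eq_zero.1 h6)
    rw [h5]
    exact hPmem w
  have hWeig : ∀ w ∈ W, T w = lam' • w := by
    intro w hw
    rw [← hT'eq w (hWperp w hw)]
    exact eigen_of_max T' hT'sa lam' hle ((hiff w).2 hw)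
  refine ⟨E ⊔ W, ⟨inferInstance, ?_, ?_, min lam lam', lt_min hlam hlam', ?_⟩, ?_⟩
  · intro U hUS v hv
    obtain ⟨e, he, w, hw, rfl⟩ := Submodule.mem_sup.1 hv
    rw [map_add]
    refine Submodule.add_mem_sup (hU U hUS e he) ?_
    rw [← hiff]
    rw [hT'eq _ (hUperp U hUS w (hWperp w hw)), hS U hUS, U.inner_map_map, U.norm_map,
      hWeig w hw, real_inner_smul_left, real_inner_self_eq_norm_sq]
  · intro v hv
    obtain ⟨e, he, w, hw, rfl⟩ := Submodule.mem_sup.1 hv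
    rw [map_add, hWeig w hw]
    exact Submodule.add_mem_sup (hT e he) (W.smul_mem _ hw)
  · intro v hv
    obtain ⟨e, he, w, hw, rfl⟩ := Submodule.mem_sup.1 hv
    have h1 : ⟪e, w⟫ = 0 := (Submodule.mem_orthogonal E w).1 (hWperp w hw) e he
    have h2 : ⟪T e, w⟫ = 0 := (Submodule.mem_orthogonal E w).1 (hWperp w hw) _ (hT e he)
    have h3 : ⟪T w, e⟫ = 0 := by rw [hsa, real_inner_comm, h2]
    have h4 : ‖e + w‖ ^ 2 = ‖e‖ ^ 2 + ‖w‖ ^ 2 := by
      rw [norm_add_sq_real, h1]; ring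
    have h5 : ⟪T w, w⟫ = lam' * ‖w‖ ^ 2 := by
      rw [hWeig w hw, real_inner_smul_left, real_inner_self_eq_norm_sq]
    rw [map_add, inner_add_left, inner_add_right, inner_add_right, h2, h3, h4, h5]
    have h6 := hlow e he
    have h7 : min lam lam' * ‖e‖ ^ 2 ≤ lam * ‖e‖ ^ 2 :=
      mul_le_mul_of_nonneg_right (min_le_left _ _) (sq_nonneg _)
    have h8 : min lam lam' * ‖w‖ ^ 2 ≤ lam' * ‖w‖ ^ 2 :=
      mul_le_mul_of_nonneg_right (min_le_right _ _) (sq_nonneg _)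
    linarith
  · refine Submodule.finrank_lt_finrank_of_lt (lt_of_le_of_ne le_sup_left fun h => hW0 ?_)
    have h1 : W ≤ E := by rw [h]; exact le_sup_right
    rw [eq_bot_iff]
    intro w hw
    have h2 := (Submodule.mem_orthogonal E w).1 (hWperp w hw) w (h1 hw)
    rw [Submodule.mem_bot]
    exact inner_self_eq_zero.1 h2

theorem exists_carrier (T : V →L[ℝ] V) (hsa : ∀ v w : V, ⟪T v, w⟫ = ⟪v, T w⟫)
    (hpos : ∀ v : V, 0 ≤ ⟪T v, v⟫) (c : ℝ) (htr : TrB (fun v => ⟪T v, v⟫) c)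
    (S : Set (V ≃ₗᵢ[ℝ] V)) (hS : ∀ U ∈ S, ∀ v, T (U v) = U (T v))
    (hSi : ∀ U ∈ S, U.symm ∈ S) (D : ℕ)
    (hD : ∀ E : Submodule ℝ V, Good T S E → Module.finrank ℝ E ≤ D) :
    ∃ E : Submodule ℝ V, Good T S E ∧ ∀ v ∈ Eᗮ, T v = 0 := by
  by_contra hcon
  push Not at hcon
  have key : ∀ n : ℕ, ∃ E : Submodule ℝ V, Good T S E ∧ n ≤ Module.finrank ℝ E := by
    intro n
    induction n with
    | zero =>
      refine ⟨⊥, ⟨inferInstance, ?_, ?_, 1, one_pos, ?_⟩, Nat.zero_le _⟩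
      · intro U _ v hv
        rw [Submodule.mem_bot] at hv ⊢
        rw [hv, map_zero]
      · intro v hv
        rw [Submodule.mem_bot] at hv ⊢
        rw [hv, map_zero]
      · intro v hv
        rw [Submodule.mem_bot] at hv
        rw [hv]
        simp
    | succ n ih =>
      obtain ⟨E, hE, hn⟩ := ih
      obtain ⟨E', hE', hlt⟩ := good_extend T hsa hpos c htr S hS hSi hE (hcon E hE)
      exact ⟨E', hE', by omega⟩
  obtain ⟨E, hE, hn⟩ := key (D + 1)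
  have := hD E hE
  omega

end carrier

end Vale.Agent.P151.R3.H362
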