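import Vale.Agent.P151.R3.H362.Car

/-!
# P151, R3, block H: trace bounds in the ultraproduct, weak limits of operators
-/

universe u v

open Filter Topology
open scoped RealInnerProductSpace

namespace Vale.Agent.P151.R3.H362

section bessel

variable {V : Type v} [NormedAddCommGroup V] [InnerProductSpace ℝ V]

theorem bessel_of_form {m : ℕ} (y : Fin m → V) {κ : ℝ} (hκ : 0 ≤ κ)
    (h : ∀ a : Fin m → ℝ, ‖∑ j, a j • y j‖ ^ 2 ≤ κ * ∑ j, a j ^ 2) (b : V) :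
    ∑ j, ⟪y j, b⟫ ^ 2 ≤ κ * ‖b‖ ^ 2 := by
  set a : Fin m → ℝ := fun j => ⟪y j, b⟫ with ha
  have h1 := h a
  have h2 : ⟪∑ j, a j • y j, b⟫ = ∑ j, a j ^ 2 := by
    rw [sum_inner]
    refine Finset.sum_congr rfl fun j _ => ?_
    rw [real_inner_smul_left, ha, sq]
  have h3 : (∑ j, a j ^ 2) ^ 2 ≤ (κ * ∑ j, a j ^ 2) * ‖b‖ ^ 2 := by
    have h4 := abs_real_inner_le_norm (∑ j, a j • y j) b
    have h5 : ⟪∑ j, a j • y j, b⟫ ^ 2 ≤ (‖∑ j, a j • y j‖ * ‖b‖) ^ 2 := by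
      rw [← sq_abs]
      have := abs_nonneg ⟪∑ j, a j • y j, b⟫
      gcongr
    rw [mul_pow] at h5
    rw [h2] at h5
    exact h5.trans (mul_le_mul_of_nonneg_right h1 (sq_nonneg _))
  have h0 : 0 ≤ ∑ j, a j ^ 2 := Finset.sum_nonneg fun j _ => sq_nonneg _
  rcases h0.eq_or_lt with h4 | h4
  · have h6 : (∑ j, ⟪y j, b⟫ ^ 2) = 0 := h4.symm
    rw [h6]
    positivity
  · have h5 : (∑ j, a j ^ 2) * (∑ j, a j ^ 2) ≤ (κ * ‖b‖ ^ 2) * ∑ j, a j ^ 2 := by
      calc (∑ j, a j ^ 2) * (∑ j, a j ^ 2) = (∑ j, a j ^ 2) ^ 2 := by ring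
        _ ≤ _ := h3
        _ = _ := by ring
    exact le_of_mul_le_mul_right h5 h4

theorem form_of_bessel {m : ℕ} (y : Fin m → V) {κ : ℝ} (hκ : 0 ≤ κ)
    (h : ∀ b, ∑ j, ⟪y j, b⟫ ^ 2 ≤ κ * ‖b‖ ^ 2) (a : Fin m → ℝ) :
    ‖∑ j, a j • y j‖ ^ 2 ≤ κ * ∑ j, a j ^ 2 := by
  set b := ∑ j, a j • y j with hb
  have h1 : ‖b‖ ^ 2 = ∑ j, a j * ⟪y j, b⟫ := by
    rw [← real_inner_self_eq_norm_sq]
    conv_lhs => rw [hb]
    rw [sum_inner]
    refine Finset.sum_congr rfl fun j _ => ?_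
    rw [real_inner_smul_left, ← hb]
  have h2 : (‖b‖ ^ 2) ^ 2 ≤ (∑ j, a j ^ 2) * (κ * ‖b‖ ^ 2) := by
    conv_lhs => rw [h1]
    refine (Finset.sum_mul_sq_le_sq_mul_sq _ _ _).trans ?_
    exact mul_le_mul_of_nonneg_left (h b) (Finset.sum_nonneg fun j _ => sq_nonneg _)
  rcases (sq_nonneg ‖b‖).eq_or_lt with h3 | h3
  · rw [← h3]
    exact mul_nonneg hκ (Finset.sum_nonneg fun j _ => sq_nonneg _)
  · have h5 : ‖b‖ ^ 2 * ‖b‖ ^ 2 ≤ (κ * ∑ j, a j ^ 2) * ‖b‖ ^ 2 := by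
      calc ‖b‖ ^ 2 * ‖b‖ ^ 2 = (‖b‖ ^ 2) ^ 2 := by ring
        _ ≤ _ := h2
        _ = _ := by ring
    exact le_of_mul_le_mul_right h5 h3

/-- The distance of the Gram matrix of `y` from `g`. -/
noncomputable def gdist {m : ℕ} (g : Fin m → Fin m → ℝ) (y : Fin m → V) : ℝ :=
  ∑ j, ∑ k, |⟪y j, y k⟫ - g j k|

theorem gdist_nonneg {m : ℕ} (g : Fin m → Fin m → ℝ) (y : Fin m → V) : 0 ≤ gdist g y :=
  Finset.sum_nonneg fun _ _ => Finset.sum_nonneg fun _ _ => abs_nonneg _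

theorem norm_sq_sum {m : ℕ} (y : Fin m → V) (a : Fin m → ℝ) :
    ‖∑ j, a j • y j‖ ^ 2 = ∑ j, ∑ k, a j * a k * ⟪y j, y k⟫ := by
  rw [← real_inner_self_eq_norm_sq, sum_inner]
  refine Finset.sum_congr rfl fun j _ => ?_
  rw [inner_sum]
  refine Finset.sum_congr rfl fun k _ => ?_
  rw [real_inner_smul_left, real_inner_smul_right]
  ring

theorem form_perturb {m : ℕ} {W : Type u} [NormedAddCommGroup W] [InnerProductSpace ℝ W]
    (x : Fin m → W) (y : Fin m → V) {κ : ℝ}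
    (h : ∀ a : Fin m → ℝ, ‖∑ j, a j • x j‖ ^ 2 ≤ κ * ∑ j, a j ^ 2) (a : Fin m → ℝ) :
    ‖∑ j, a j • y j‖ ^ 2 ≤ (κ + gdist (fun j k => ⟪x j, x k⟫) y) * ∑ j, a j ^ 2 := by
  have h1 := h a
  have hA : ∀ j k, |a j * a k| ≤ ∑ l, a l ^ 2 := by
    intro j k
    have h2 : a j ^ 2 ≤ ∑ l, a l ^ 2 :=
      Finset.single_le_sum (f := fun l => a l ^ 2) (fun l _ => sq_nonneg _) (Finset.mem_univ j)
    have h3 : a k ^ 2 ≤ ∑ l, a l ^ 2 :=
      Finset.single_le_sum (f := fun l => a l ^ 2) (fun l _ => sq_nonneg _) (Finset.mem_univ k)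
    rw [abs_le]
    constructor
    · nlinarith [sq_nonneg (a j + a k)]
    · nlinarith [sq_nonneg (a j - a k)]
  have h2 : ‖∑ j, a j • y j‖ ^ 2 - ‖∑ j, a j • x j‖ ^ 2 ≤
      gdist (fun j k => ⟪x j, x k⟫) y * ∑ j, a j ^ 2 := by
    rw [norm_sq_sum, norm_sq_sum, ← Finset.sum_sub_distrib, gdist, Finset.sum_mul]
    refine Finset.sum_le_sum fun j _ => ?_
    rw [← Finset.sum_sub_distrib, Finset.sum_mul]
    refine Finset.sum_le_sum fun k _ => ?_
    rw [← mul_sub]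
    refine (le_abs_self _).trans ?_
    rw [abs_mul, mul_comm]
    exact mul_le_mul_of_nonneg_left (hA j k) (abs_nonneg _)
  linarith

end bessel

section up

variable {I : Type u} {F : Ultrafilter I} {H : I → Type v} [∀ i, NormedAddCommGroup (H i)]
  [∀ i, InnerProductSpace ℝ (H i)]

theorem tendsto_gdist {m : ℕ} (g : Fin m → Fin m → ℝ) (v : Fin m → ↥(Bdd F H)) :
    Tendsto (fun i => gdist g (fun j => (v j).1 i)) F (𝓝 (gdist g fun j => mk F H (v j))) := by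
  unfold gdist
  refine tendsto_finsetSum _ fun j _ => tendsto_finsetSum _ fun k _ => ?_
  exact ((tendsto_inner (v j) (v k)).sub_const _).abs

theorem trB_op (T : ∀ i, H i →ₗ[ℝ] H i) (hT : BddOp F T) (c : ℝ)
    (h : ∀ᶠ i in (F : Filter I), TrB (fun x => ⟪T i x, x⟫) c) :
    TrB (fun x => ⟪op T hT x, x⟫) c := by
  intro m x κ hκ hx
  have hform := form_of_bessel x hκ hx
  have key : ∀ y : Fin m → UP F H, ∑ j, ⟪op T hT (y j), y j⟫ ≤
      (κ + gdist (fun j k => ⟪x j, x k⟫) y) * c := by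
    have hdense : DenseRange (fun v : Fin m → ↥(Bdd F H) => fun j => mk F H (v j)) :=
      DenseRange.piMap (fun _ => denseRange_mk)
    intro y
    refine hdense.induction_on (p := fun y : Fin m → UP F H => ∑ j, ⟪op T hT (y j), y j⟫ ≤
      (κ + gdist (fun j k => ⟪x j, x k⟫) y) * c) y ?_ ?_
    · refine isClosed_le ?_ ?_
      · fun_prop
      · unfold gdist
        fun_prop
    · intro v
      have h1 : Tendsto (fun i => ∑ j, ⟪T i ((v j).1 i), (v j).1 i⟫) F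
          (𝓝 (∑ j, ⟪op T hT (mk F H (v j)), mk F H (v j)⟫)) :=
        tendsto_finsetSum _ fun j _ => tendsto_inner_op T hT _ _
      have h2 := ((tendsto_gdist (fun j k => ⟪x j, x k⟫) v).const_add κ).mul_const c
      refine le_of_tendsto_of_tendsto h1 h2 ?_
      filter_upwards [h] with i hi
      refine hi m _ _ (add_nonneg hκ (gdist_nonneg _ _)) ?_
      exact bessel_of_form _ (add_nonneg hκ (gdist_nonneg _ _)) (form_perturb x _ hform)
  have h1 := key x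
  have h2 : gdist (fun j k => ⟪x j, x k⟫) x = 0 := by
    unfold gdist
    simp
  rwa [h2, add_zero] at h1

end up

section weak

variable {V : Type v} [NormedAddCommGroup V] [InnerProductSpace ℝ V] [CompleteSpace V]

/-- Weak limits of bounded sequences of operators along an ultrafilter. -/
theorem exists_weak_limit {J : Type u} (W : Ultrafilter J) (T : J → V →L[ℝ] V) (C : ℝ)
    (hC : ∀ k x, ‖T k x‖ ≤ C * ‖x‖) :
    ∃ S : V →L[ℝ] V, ∀ x y, Tendsto (fun k => ⟪T k x, y⟫) W (𝓝 ⟪S x, y⟫) := by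
  have hb : ∀ x y, ∃ D : ℝ, ∀ᶠ k in (W : Filter J), |⟪T k x, y⟫| ≤ D := fun x y =>
    ⟨C * ‖x‖ * ‖y‖, Eventually.of_forall fun k =>
      (abs_real_inner_le_norm _ _).trans (mul_le_mul_of_nonneg_right (hC k x) (norm_nonneg _))⟩
  have hle : ∀ x y, |ul W (fun k => ⟪T k x, y⟫)| ≤ C * ‖x‖ * ‖y‖ := fun x y =>
    le_of_tendsto (tendsto_ul W (hb x y)).abs (Eventually.of_forall fun k =>
      (abs_real_inner_le_norm _ _).trans (mul_le_mul_of_nonneg_right (hC k x) (norm_nonneg _)))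
  let B : V →ₗ[ℝ] V →ₗ[ℝ] ℝ := LinearMap.mk₂ ℝ (fun x y => ul W (fun k => ⟪T k x, y⟫))
    (fun x x' y => by
      refine ul_eq W (((tendsto_ul W (hb x y)).add (tendsto_ul W (hb x' y))).congr fun k => ?_)
      rw [map_add, inner_add_left])
    (fun c x y => by
      refine ul_eq W (((tendsto_ul W (hb x y)).const_mul c).congr fun k => ?_)
      rw [map_smul, real_inner_smul_left])
    (fun x y y' => by
      refine ul_eq W (((tendsto_ul W (hb x y)).add (tendsto_ul W (hb x y'))).congr fun k => ?_)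
      rw [inner_add_right])
    (fun c x y => by
      refine ul_eq W (((tendsto_ul W (hb x y)).const_mul c).congr fun k => ?_)
      rw [real_inner_smul_right])
  let B' : V →L[ℝ] V →L[ℝ] ℝ := B.mkContinuous₂ C fun x y => hle x y
  refine ⟨InnerProductSpace.continuousLinearMapOfBilin (𝕜 := ℝ) B', fun x y => ?_⟩
  have h1 := InnerProductSpace.continuousLinearMapOfBilin_apply (𝕜 := ℝ) B' x y
  rw [h1]
  exact tendsto_ul W (hb x y)

end weak

end Vale.Agent.P151.R3.H362
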