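import Vale.Agent.P151.R3.H362.Wl
import Vale.Agent.P151.R3.H362.BlockH

/-!
# P151, R3, glue of blocks A, O, H: the data of one window and their limit
-/

universe u v

open Filter Topology
open scoped RealInnerProductSpace

namespace Vale.Agent.P151.R3.H362

open Vale.Agent.P151.GB Vale.Agent.P151.H36 Vale.Agent.P151.R3.V Vale.Agent.P151.R3.H860
  Vale.Agent.P151.RG

/-- What blocks A and O give for one window.  `B, c, a` are positive constants and `J` a number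
independent of the window, `good k` = the time `k` is good, `N` = the quality of the window. -/
structure Lvl {Γ : Type u} [Group Γ] (D : Len Γ) {E : Type v} [NormedAddCommGroup E]
    [InnerProductSpace ℝ E] (lam : Γ →* (E ≃ₗᵢ[ℝ] E)) (b : Γ → E) (T : ℕ → E →ₗ[ℝ] E)
    (good : ℕ → Prop) (B c a : ℝ) (J N : ℕ) : Prop where
  coc : ∀ g h, b (g * h) = b g + lam g (b h)
  bK : ∀ g, D.ℓ g = 0 → b g = 0
  bd : ∀ g, ‖b g‖ ≤ B * (1 + D.ℓ g)
  symm : ∀ k x y, ⟪T k x, y⟫ = ⟪x, T k y⟫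
  nonneg : ∀ k x, 0 ≤ ⟪T k x, x⟫
  norm : ∀ k x, ‖T k x‖ ≤ c * ‖x‖
  tr : ∀ k, TrB (fun x => ⟪T k x, x⟫) c
  comm : ∀ k, 1 ≤ k → ∀ g, D.ℓ g ≤ 1 → ∀ x, ‖T k (lam g x) - lam g (T k x)‖ ≤
    c / Real.sqrt k * ‖x‖
  oz : ∀ k, 1 ≤ k → k ≤ N → good k → ∀ g, D.ℓ g ≤ 1 → ∀ x,
    ⟪b g, x⟫ ^ 2 ≤ c * (⟪T k x, x⟫ + ‖x‖ ^ 2 / Real.sqrt k)
  goods : ∀ k1, J ≤ k1 → k1 ^ 2 ≤ N → ∃ k, k1 ≤ k ∧ k < k1 ^ 2 ∧ good k
  sel : ∀ k, 1 ≤ k → ∀ lm : ℝ, 0 < lm → k ≤ N → 1 ≤ lm * N → ∀ x, ‖x‖ ≤ 2 → lm ≤ ⟪T k x, x⟫ →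
    ∃ g, D.ℓ g ≤ J * k ∧ a * lm / k ≤ ⟪b g, x⟫
  ne : ∃ g, D.ℓ g ≤ J ∧ a ≤ ‖b g‖

section

variable {Γ : Type u} [Group Γ] {D : Len Γ} {E : Type v} [NormedAddCommGroup E]
  [InnerProductSpace ℝ E] {lam : Γ →* (E ≃ₗᵢ[ℝ] E)} {b : Γ → E} {T : ℕ → E →ₗ[ℝ] E}
  {good : ℕ → Prop} {B c a : ℝ} {J N : ℕ}

theorem Lvl.comm_m (h : Lvl D lam b T good B c a J N) (hs : Split D) (m : ℕ) :
    ∀ g, D.ℓ g ≤ m → ∀ k, 1 ≤ k → ∀ x,
      ‖T k (lam g x) - lam g (T k x)‖ ≤ (m + 1) * c / Real.sqrt k * ‖x‖ := by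
  induction m with
  | zero =>
    intro g hg k hk x
    simpa using h.comm k hk g (by omega) x
  | succ m ih =>
    intro g hg k hk x
    obtain ⟨y, z, rfl, hy, hz⟩ := hs g m 1 hg
    have h1 := ih y hy k hk (lam z x)
    have h2 := h.comm k hk z hz x
    have e1 : lam (y * z) x = lam y (lam z x) := lam_mul lam y z x
    have e2 : lam (y * z) (T k x) = lam y (lam z (T k x)) := lam_mul lam y z _
    have e3 : T k (lam (y * z) x) - lam (y * z) (T k x) =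
        (T k (lam y (lam z x)) - lam y (T k (lam z x))) +
          lam y (T k (lam z x) - lam z (T k x)) := by
      rw [e1, e2, map_sub]
      abel
    rw [e3]
    refine (norm_add_le _ _).trans ?_
    rw [LinearIsometryEquiv.norm_map] at h1 ⊢
    push_cast
    calc _ ≤ (m + 1) * c / Real.sqrt k * ‖x‖ + c / Real.sqrt k * ‖x‖ := add_le_add h1 h2
      _ = (m + 1 + 1) * c / Real.sqrt k * ‖x‖ := by ring

theorem Lvl.T_move (h : Lvl D lam b T good B c a J N) (hs : Split D) (m : ℕ)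
    (g : Γ) (hg : D.ℓ g ≤ m) (k : ℕ) (hk : 1 ≤ k) (x : E) :
    ⟪T k (lam g x), lam g x⟫ ≤ ⟪T k x, x⟫ + (m + 1) * c * (‖x‖ ^ 2 / Real.sqrt k) := by
  have h1 := h.comm_m hs m g hg k hk x
  have h2 : ⟪T k (lam g x), lam g x⟫ =
      ⟪T k (lam g x) - lam g (T k x), lam g x⟫ + ⟪T k x, x⟫ := by
    rw [inner_sub_left, LinearIsometryEquiv.inner_map_map]
    ring
  rw [h2]
  have h3 : ⟪T k (lam g x) - lam g (T k x), lam g x⟫ ≤
      (m + 1) * c / Real.sqrt k * ‖x‖ * ‖x‖ := by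
    refine (real_inner_le_norm _ _).trans ?_
    rw [LinearIsometryEquiv.norm_map]
    exact mul_le_mul_of_nonneg_right h1 (norm_nonneg _)
  have h4 : (m + 1) * c / Real.sqrt k * ‖x‖ * ‖x‖ = (m + 1) * c * (‖x‖ ^ 2 / Real.sqrt k) := by
    ring
  linarith

/-- the constants of the Ozawa inequality for products of `m + 1` letters -/
noncomputable def ozc (c : ℝ) : ℕ → ℝ
  | 0 => c
  | m + 1 => 2 * ozc c m + 2 * c * (1 + (m + 1) * c)

theorem ozc_nonneg (hc : 0 ≤ c) (m : ℕ) : 0 ≤ ozc c m := by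
  induction m with
  | zero => exact hc
  | succ m ih => rw [ozc]; positivity

theorem Lvl.oz_m (h : Lvl D lam b T good B c a J N) (hs : Split D) (hc : 0 ≤ c) (m : ℕ) :
    ∀ g, D.ℓ g ≤ m → ∀ k, 1 ≤ k → k ≤ N → good k → ∀ x,
      ⟪b g, x⟫ ^ 2 ≤ ozc c m * (⟪T k x, x⟫ + ‖x‖ ^ 2 / Real.sqrt k) := by
  induction m with
  | zero =>
    intro g hg k hk hkN hgood x
    exact h.oz k hk hkN hgood g (by omega) x
  | succ m ih =>
    intro g hg k hk hkN hgood x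
    obtain ⟨y, z, rfl, hy, hz⟩ := hs g m 1 hg
    have h1 := ih y hy k hk hkN hgood x
    have h2 := h.oz k hk hkN hgood z hz (lam y⁻¹ x)
    have h3 := h.T_move hs m y⁻¹ (by rw [D.inv]; exact hy) k hk x
    rw [LinearIsometryEquiv.norm_map] at h2
    have e1 : ⟪b (y * z), x⟫ = ⟪b y, x⟫ + ⟪b z, lam y⁻¹ x⟫ := by
      rw [h.coc, inner_add_left, inner_lam]
    have h0 : 0 ≤ ⟪T k x, x⟫ := h.nonneg k x
    have hq : 0 ≤ ‖x‖ ^ 2 / Real.sqrt k := by positivity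
    set q := ‖x‖ ^ 2 / Real.sqrt k with hqd
    have h4 : ⟪b z, lam y⁻¹ x⟫ ^ 2 ≤ c * (1 + (m + 1) * c) * (⟪T k x, x⟫ + q) := by
      refine h2.trans ?_
      have h5 : ⟪T k (lam y⁻¹ x), lam y⁻¹ x⟫ + q ≤ (1 + (m + 1) * c) * (⟪T k x, x⟫ + q) := by
        have h6 : 0 ≤ (m + 1 : ℝ) * c := by positivity
        nlinarith
      calc c * (⟪T k (lam y⁻¹ x), lam y⁻¹ x⟫ + q) ≤
            c * ((1 + (m + 1) * c) * (⟪T k x, x⟫ + q)) := mul_le_mul_of_nonneg_left h5 hc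
        _ = _ := by ring
    rw [e1, ozc]
    have h7 : (⟪b y, x⟫ + ⟪b z, lam y⁻¹ x⟫) ^ 2 ≤
        2 * ⟪b y, x⟫ ^ 2 + 2 * ⟪b z, lam y⁻¹ x⟫ ^ 2 := by
      nlinarith [sq_nonneg (⟪b y, x⟫ - ⟪b z, lam y⁻¹ x⟫)]
    calc _ ≤ 2 * ⟪b y, x⟫ ^ 2 + 2 * ⟪b z, lam y⁻¹ x⟫ ^ 2 := h7
      _ ≤ 2 * (ozc c m * (⟪T k x, x⟫ + q)) +
          2 * (c * (1 + (m + 1) * c) * (⟪T k x, x⟫ + q)) := by linarith
      _ = _ := by ring

end

section limit

/-- **The limit of a sequence of levels.** -/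
theorem exists_data1 {Γ : Type} [Group Γ] (U : Ultrafilter ℕ)
    (D : ℕ → Len Γ) (hD : ∀ n, (D n).Proper) (hs : ∀ n, Split (D n)) (Cv : ℝ)
    (hvol : ∀ A : ℕ, ∀ᶠ n in (U : Filter ℕ),
      ((bl (hD n) (A + 2)).card : ℝ) ≤ Cv * (A + 1) ^ 2 * (bl (hD n) 2).card)
    (H : ℕ → Type) [∀ n, NormedAddCommGroup (H n)] [∀ n, InnerProductSpace ℝ (H n)]
    (lam : ∀ n, Γ →* (H n ≃ₗᵢ[ℝ] H n)) (b : ∀ n, Γ → H n) (T : ∀ n, ℕ → H n →ₗ[ℝ] H n)
    (good : ℕ → ℕ → Prop) (B c a : ℝ) (J : ℕ) (hB : 0 ≤ B) (hc : 0 ≤ c) (ha : 0 < a)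
    (N : ℕ → ℕ) (hN : Tendsto N U atTop)
    (hlvl : ∀ᶠ n in (U : Filter ℕ), Lvl (D n) (lam n) (b n) (T n) (good n) B c a J (N n)) :
    ∃ (W : Type) (_ : NormedAddCommGroup W) (_ : InnerProductSpace ℝ W)
      (_ : FiniteDimensional ℝ W) (_ : Nontrivial W) (π : G0 U D →* (W ≃ₗᵢ[ℝ] W))
      (β : G0 U D → W) (C : ℝ), Vale.Agent.P151.R3.H17.Data1 (nlen hs) W π β C ∧
        ∀ g, nl U D g = 0 → β g = 0 := by
  classical
  -- the common good times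
  set K0 : Set ℕ := {k | 1 ≤ k ∧ ∀ᶠ n in (U : Filter ℕ), good n k} with hK0
  have hK0inf : K0.Infinite := by
    rw [← Nat.frequently_atTop_iff_infinite, frequently_atTop]
    intro k1
    have h1 : ∀ᶠ n in (U : Filter ℕ), ∃ k, k1 + J + 2 ≤ k ∧ k < (k1 + J + 2) ^ 2 ∧ good n k := by
      filter_upwards [hlvl, hN (eventually_ge_atTop ((k1 + J + 2) ^ 2))] with n hn hNn
      exact hn.goods (k1 + J + 2) (by omega) hNn
    have h2 : ∀ᶠ n in (U : Filter ℕ), ∃ k ∈ Finset.range ((k1 + J + 2) ^ 2), k1 + J + 2 ≤ k ∧ good n k := by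
      filter_upwards [h1] with n hn
      obtain ⟨k, hk1, hk2, hk3⟩ := hn
      exact ⟨k, Finset.mem_range.2 hk2, hk1, hk3⟩
    have h3 : ∃ k ∈ Finset.range ((k1 + J + 2) ^ 2), ∀ᶠ n in (U : Filter ℕ), k1 + J + 2 ≤ k ∧ good n k := by
      by_contra hcon
      push Not at hcon
      have h4 : ∀ᶠ n in (U : Filter ℕ), ∀ k ∈ Finset.range ((k1 + J + 2) ^ 2),
          ¬ (k1 + J + 2 ≤ k ∧ good n k) := by
        rw [Filter.eventually_all_finset]
        intro k hk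
        exact (hcon k hk).mono fun n hn h => hn h.1 h.2
      obtain ⟨n, ⟨k, hk, hk'⟩, hn⟩ := (h2.and h4).exists
      exact hn k hk hk'
    obtain ⟨k, -, hk⟩ := h3
    obtain ⟨n, hn⟩ := hk.exists
    exact ⟨k, by omega, ⟨by omega, hk.mono fun n hn => hn.2⟩⟩
  -- the representation of the group of sequences
  let ρ : G0 U D →* ∀ n, H n ≃ₗᵢ[ℝ] H n :=
    { toFun := fun g n => lam n (g.1 n)
      map_one' := funext fun n => map_one (lam n)
      map_mul' := fun g h => funext fun n => map_mul (lam n) _ _ }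
  have hρ : ∀ g n, ρ g n = lam n (g.1 n) := fun _ _ => rfl
  have hT : ∀ g : G0 U D, ∃ m : ℕ, ∀ᶠ n in (U : Filter ℕ), (D n).ℓ (g.1 n) ≤ m := fun g => g.2
  obtain ⟨W, i1, i2, i3, i4, π, β, h1, h2, h3, Jv, e, he, h4⟩ :=
    blockH (F := U) (H := H) ρ (fun g n => b n (g.1 n)) (fun g => (nl U D g : ℝ)) B c
      (fun k n => T n k) (fun g h => by
        filter_upwards [hlvl] with n hn
        exact hn.coc _ _)
      (fun g => by
        filter_upwards [hlvl, nl_spec g] with n hn hg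
        have := hn.bd (g.1 n)
        rwa [hg] at this)
      (fun k => hlvl.mono fun n hn => hn.symm k)
      (fun k => hlvl.mono fun n hn => hn.nonneg k) hB hc
      (fun k => hlvl.mono fun n hn => hn.norm k)
      (fun k => hlvl.mono fun n hn => hn.tr k)
      (fun g => by
        refine ⟨(nl U D g + 1) * c, fun k hk => ?_⟩
        filter_upwards [hlvl, nl_spec g] with n hn hg x
        exact hn.comm_m (hs n) (nl U D g) (g.1 n) hg.le k hk x)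
      K0 hK0inf
      (fun g => by
        refine ⟨ozc c (nl U D g), fun k hk => ?_⟩
        filter_upwards [hlvl, nl_spec g, hk.2, hN (eventually_ge_atTop k)] with n hn hg hgood hNn x
        exact hn.oz_m (hs n) hc (nl U D g) (g.1 n) hg.le k hk.1 hNn hgood x)
      (fun k hk => by
        refine ⟨J * k, fun lm hlm => ?_⟩
        · refine ⟨a * lm / k, by positivity, fun x hx => ?_⟩
          have h5 : ∀ᶠ n in (U : Filter ℕ), 1 ≤ lm * (N n : ℝ) := by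
            have h6 : Tendsto (fun n => lm * (N n : ℝ)) U atTop :=
              (tendsto_natCast_atTop_atTop.comp hN).const_mul_atTop hlm
            exact h6 (eventually_ge_atTop 1)
          have h7 : ∀ᶠ n in (U : Filter ℕ), ∃ g, (D n).ℓ g ≤ J * k ∧ a * lm / k ≤ ⟪b n g, x n⟫ := by
            filter_upwards [hlvl, hx, h5, hN (eventually_ge_atTop k)] with n hn hxn h5n hNn
            exact hn.sel k hk lm hlm hNn h5n (x n) hxn.1 hxn.2
          have hch : ∀ n, ∃ g : Γ, (∃ g', (D n).ℓ g' ≤ J * k ∧ a * lm / k ≤ ⟪b n g', x n⟫) →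
              (D n).ℓ g ≤ J * k ∧ a * lm / k ≤ ⟪b n g, x n⟫ := by
            intro n
            by_cases hn : ∃ g', (D n).ℓ g' ≤ J * k ∧ a * lm / k ≤ ⟪b n g', x n⟫
            · obtain ⟨g', hg'⟩ := hn
              exact ⟨g', fun _ => hg'⟩
            · exact ⟨1, fun h => absurd h hn⟩
          choose G hG using hch
          have h8 : ∀ᶠ n in (U : Filter ℕ), (D n).ℓ (G n) ≤ J * k ∧ a * lm / k ≤ ⟪b n (G n), x n⟫ :=
            h7.mono fun n hn => hG n hn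
          refine ⟨⟨G, J * k, h8.mono fun n hn => hn.1⟩, ?_, h8.mono fun n hn => hn.2⟩
          have h9 : nl U D ⟨G, J * k, h8.mono fun n hn => hn.1⟩ ≤ J * k :=
            nl_le (h8.mono fun n hn => hn.1)
          exact_mod_cast h9)
      (by
        have h5 : ∀ᶠ n in (U : Filter ℕ), ∃ g, (D n).ℓ g ≤ J ∧ a ≤ ‖b n g‖ :=
          hlvl.mono fun n hn => hn.ne
        have hch : ∀ n, ∃ g : Γ, (∃ g', (D n).ℓ g' ≤ J ∧ a ≤ ‖b n g'‖) →
            (D n).ℓ g ≤ J ∧ a ≤ ‖b n g‖ := by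
          intro n
          by_cases hn : ∃ g', (D n).ℓ g' ≤ J ∧ a ≤ ‖b n g'‖
          · obtain ⟨g', hg'⟩ := hn
            exact ⟨g', fun _ => hg'⟩
          · exact ⟨1, fun h => absurd h hn⟩
        choose G hG using hch
        have h8 : ∀ᶠ n in (U : Filter ℕ), (D n).ℓ (G n) ≤ J ∧ a ≤ ‖b n (G n)‖ :=
          h5.mono fun n hn => hG n hn
        refine ⟨⟨G, J, h8.mono fun n hn => hn.1⟩, fun hlim => ?_⟩
        have h9 : a ≤ 0 := ge_of_tendsto hlim (h8.mono fun n hn => hn.2)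
        linarith)
  refine ⟨W, i1, i2, i3, i4, π, β, max B (max Cv 1), ⟨?_, ?_, h1, ?_⟩, ?_⟩
  · intro A S hS hsep
    refine (pack hD hs Cv hvol A S hS hsep).trans ?_
    exact mul_le_mul_of_nonneg_right ((le_max_left _ _).trans (le_max_right _ _)) (by positivity)
  · intro g
    refine (h2 g).trans ?_
    exact mul_le_mul_of_nonneg_right (le_max_left _ _) (by positivity)
  · refine ⟨⌈Jv⌉₊, e, he, fun u hu => ?_⟩
    obtain ⟨g, hg1, hg2⟩ := h4 u hu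
    refine ⟨g, ?_, hg2⟩
    have h5 : (nl U D g : ℝ) ≤ ⌈Jv⌉₊ := hg1.trans (Nat.le_ceil _)
    exact_mod_cast h5
  · intro g hg
    refine h3 g ?_
    filter_upwards [hlvl, nl_spec g] with n hn hgn
    exact hn.bK _ (by rw [hgn, hg])

/-- **(LVL)** what blocks A and O have to supply for the windows of a sequence. -/
def LvlStmt : Prop := ∀ (Γ : Type) [Group Γ] (L : Len Γ), L.Proper → SE L → L.CG →
  Infinite (Γ ⧸ L.K) → ∀ (C c0 : ℕ) (P : ℕ → Set Γ) (w : ℕ → ℕ) (D : ℕ → Len Γ),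
  Seq L C c0 P w D → ∃ (B c a : ℝ) (J : ℕ) (N : ℕ → ℕ), 0 ≤ B ∧ 0 ≤ c ∧ 0 < a ∧
    Tendsto N atTop atTop ∧ ∀ᶠ n in atTop, ∃ (b : Γ → L2K (D n))
      (T : ℕ → L2K (D n) →ₗ[ℝ] L2K (D n)) (good : ℕ → Prop),
      Lvl (D n) (lamK (D n)) b T good B c a J (N n)

theorem lim_of_lvl (hL : LvlStmt) : LimStmt := by
  classical
  intro Γ _ L hp hse hcg hinf C c0 P w D hS U hU
  obtain ⟨B, c, a, J, N, hB, hc, ha, hN, hlvl⟩ := hL Γ L hp hse hcg hinf C c0 P w D hS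
  have hs : ∀ n, Split (D n) := fun n => wlen_split (hS.len n)
  have hD : ∀ n, (D n).Proper := fun n => wlen_proper (hS.len n) (hS.win n)
  have hch : ∀ n, ∃ x : (Γ → L2K (D n)) × (ℕ → L2K (D n) →ₗ[ℝ] L2K (D n)) × (ℕ → Prop),
      (∃ (b : Γ → L2K (D n)) (T : ℕ → L2K (D n) →ₗ[ℝ] L2K (D n)) (good : ℕ → Prop),
        Lvl (D n) (lamK (D n)) b T good B c a J (N n)) →
      Lvl (D n) (lamK (D n)) x.1 x.2.1 x.2.2 B c a J (N n) := by
    intro n
    by_cases h : ∃ (b : Γ → L2K (D n)) (T : ℕ → L2K (D n) →ₗ[ℝ] L2K (D n)) (good : ℕ → Prop),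
        Lvl (D n) (lamK (D n)) b T good B c a J (N n)
    · obtain ⟨b, T, good, hl⟩ := h
      exact ⟨(b, T, good), fun _ => hl⟩
    · exact ⟨(0, 0, fun _ => False), fun h' => absurd h' h⟩
  choose x hx using hch
  have hvol : ∀ A : ℕ, ∀ᶠ n in (U : Filter ℕ),
      ((bl (hD n) (A + 2)).card : ℝ) ≤ (4 * C) * (A + 1) ^ 2 * (bl (hD n) 2).card := by
    intro A
    filter_upwards [hU (eventually_ge_atTop (A + 2))] with n hn
    exact vol_bound (hS.len n) (hS.win n) (hD n) A hn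
  obtain ⟨W, i1, i2, i3, i4, π, β, C', h1, h2⟩ := exists_data1 U D hD hs (4 * C) hvol
    (fun n => L2K (D n)) (fun n => lamK (D n)) (fun n => (x n).1) (fun n => (x n).2.1)
    (fun n => (x n).2.2) B c a J hB hc ha N (hN.mono_left hU)
    (by
      have h3 := Filter.Eventually.filter_mono hU hlvl
      exact h3.mono fun n hn => hx n hn)
  refine ⟨nlen hs, fun g m => ⟨fun h => ?_, fun h => nl_le h⟩, W, i1, i2, i3, i4, π, β, C', h1, h2⟩
  filter_upwards [nl_spec (F := U) (L := D) g] with n hn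
  have h3 : (D n).ℓ ((g : ℕ → Γ) n) = nl U D g := hn
  rw [h3]
  exact h

end limit

end Vale.Agent.P151.R3.H362
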