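import Vale.Agent.P151.R3.H362.Lvl
import Vale.Agent.P151.H36.SeqHyp

/-!
# P151, R3: `LvlStmt` from the windows and from the operators of one window
-/

universe u v

open Filter Topology
open scoped RealInnerProductSpace

namespace Vale.Agent.P151.R3.H362

open Vale.Agent.P151.GB Vale.Agent.P151.H36 Vale.Agent.P151.R3.V Vale.Agent.P151.R3.H860
  Vale.Agent.P151.RG

theorem exists_diag {P : ℕ → ℕ → Prop} (h : ∀ N, ∀ᶠ n in atTop, P N n) :
    ∃ N : ℕ → ℕ, Tendsto N atTop atTop ∧ ∀ᶠ n in atTop, P (N n) n := by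
  classical
  have h1 : ∀ N, ∃ t : ℕ, ∀ n, t ≤ n → P N n := fun N => eventually_atTop.1 (h N)
  choose t ht using h1
  refine ⟨fun n => Nat.findGreatest (fun N => t N ≤ n) n, ?_, ?_⟩
  · refine tendsto_atTop.2 fun k => ?_
    filter_upwards [eventually_ge_atTop (max k (t k))] with n hn
    exact Nat.le_findGreatest ((le_max_left _ _).trans hn) ((le_max_right _ _).trans hn)
  · filter_upwards [eventually_ge_atTop (t 0)] with n hn
    refine ht _ n ?_
    exact Nat.findGreatest_spec (P := fun N => t N ≤ n) (Nat.zero_le n) hn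

/-- the operators of one window -/
def LvlW : Prop := ∀ C J : ℕ, ∃ (B c a : ℝ) (J' : ℕ), 0 ≤ B ∧ 0 ≤ c ∧ 0 < a ∧
  ∀ N : ℕ, ∃ M A0 : ℕ, ∀ (Γ : Type) [Group Γ] (D : Len Γ) (hD : D.Proper) (u A : ℕ)
    (b : Γ → L2K D), WCoc hD J u A b → Split D →
    (∀ m, 1 ≤ m → m ≤ M → (bl hD m).card ≤ C * m ^ 2 * (bl hD 1).card) → A0 ≤ A →
    ∃ (T : ℕ → L2K D →ₗ[ℝ] L2K D) (good : ℕ → Prop), Lvl D (lamK D) b T good B c a J' N

theorem lvlStmt_of (h2 : LvlW) : LvlStmt := by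
  classical
  intro Γ _ L hp hse hcg hinf C c0 P w D hS
  have hs : ∀ n, Split (D n) := fun n => wlen_split (hS.len n)
  have hD : ∀ n, (D n).Proper := fun n => wlen_proper (hS.len n) (hS.win n)
  obtain ⟨J, hJ⟩ := window_cocycle.{0} C
  obtain ⟨B, c, a, J', hB, hc, ha, hN⟩ := h2 C J
  have key : ∀ N, ∀ᶠ n in atTop, ∃ (b : Γ → L2K (D n))
      (T : ℕ → L2K (D n) →ₗ[ℝ] L2K (D n)) (good : ℕ → Prop),
      Lvl (D n) (lamK (D n)) b T good B c a J' N := by
    intro N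
    obtain ⟨M, A0, hM⟩ := hN N
    obtain ⟨T, hT⟩ := hJ A0
    filter_upwards [eventually_ge_atTop (max M T)] with n hn
    have hg : ∀ m, 1 ≤ m → m ≤ n → (bl (hD n) m).card ≤ C * m ^ 2 * (bl (hD n) 1).card :=
      fun m h1 h2 => wlen_grow (hS.len n) (hS.win n) (hD n) m h1 h2
    obtain ⟨u, A, b, h6, h7⟩ := hT Γ (D n) (hD n)
      (wlen_subE (hS.len n) (hS.win n).fin hp hse (hD n)) (hs n) (wlen_infinite (hS.len n) hinf)
      (fun m hm1 hm2 => hg m hm1 (hm2.trans ((le_max_right _ _).trans hn)))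
    obtain ⟨T', good, h8⟩ := hM Γ (D n) (hD n) u A b h7 (hs n)
      (fun m hm1 hm2 => hg m hm1 (hm2.trans ((le_max_left _ _).trans hn))) h6
    exact ⟨b, T', good, h8⟩
  obtain ⟨N, hN1, hN2⟩ := exists_diag key
  exact ⟨B, c, a, J', N, hB, hc, ha, hN1, hN2⟩

theorem lim_of (h2 : LvlW) : LimStmt := lim_of_lvl (lvlStmt_of h2)

end Vale.Agent.P151.R3.H362
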