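import Vale.Agent.P151.R3.H362.LvlOf
import Vale.Agent.P151.R3.H430.Oz5

/-!
# P151, R3: the operators of one window
-/

universe u v

open Filter Topology
open scoped RealInnerProductSpace

namespace Vale.Agent.P151.R3.H362

open Vale.Agent.P151.GB Vale.Agent.P151.H36 Vale.Agent.P151.R3.V Vale.Agent.P151.R3.H860
  Vale.Agent.P151.RG Vale.Agent.P151.H982 Vale.Agent.P151.R3.O

section

variable {Γ : Type u} [Group Γ] {D : Len Γ} {hD : D.Proper} {J u A : ℕ} {b : Γ → L2K D}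

theorem mk_smul_oK (g : Γ) : g • oK D = ((g : Γ) : Γ ⧸ D.K) := by
  change ((g * 1 : Γ) : Γ ⧸ D.K) = _
  rw [mul_one]

theorem wcoc_near (h : WCoc hD J u A b) (g : Γ) (hg : D.ℓ g ≤ 1) :
    Near (nbK hD u) (oK D) g := by
  classical
  refine ⟨nbK hD u (oK D) ∩ nbK hD u (g • oK D), Finset.inter_subset_left,
    Finset.inter_subset_right, ?_⟩
  have h1 := overlap_nbK hD h.ratio g hg
  have h2 : (nbK hD u (oK D)).card ≤ 2 * (nbK hD u (oK D) ∩ nbK hD u (g • oK D)).card := by omega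
  exact_mod_cast h2

theorem wcoc_F (h : WCoc hD J u A b) (g : Γ) : FK b (g • oK D) - FK b (oK D) = b g := by
  rw [h.FK_smul_oK, h.FK_oK, sub_zero]

theorem wcoc_vav (h : WCoc hD J u A b) (hsp : Split D) :
    ‖vav (nbK hD u) (FK b) (oK D) - FK b (oK D)‖ ≤ 2048 / A := by
  rw [vav_sub_self (vgK hD hsp h.u_pos).self]
  exact h.drift'

theorem wcoc_J (h : WCoc hD J u A b) : (1 : ℝ) ≤ J := by
  exact_mod_cast h.u_pos.trans h.u_le

theorem wcoc_ne (h : WCoc hD J u A b) :
    ∃ g, D.ℓ g ≤ J ∧ 1 / (5200 * ((J : ℝ) + 1)) ≤ ‖b g‖ := by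
  by_contra hcon
  push Not at hcon
  have hJ := wcoc_J h
  have h1 := h.sg_ge
  have hcard : (0 : ℝ) < (nbK hD u (oK D)).card := by
    have : oK D ∈ nbK hD u (oK D) := by
      rw [mem_nbK, dK_self]
      exact Nat.zero_le _
    exact_mod_cast Finset.card_pos.2 ⟨_, this⟩
  have h2 : sg (nbK hD u) (FK b) (oK D) ≤ (1 / (5200 * ((J : ℝ) + 1))) ^ 2 := by
    rw [sg, H982.av, inv_mul_le_iff₀ hcard, ← nsmul_eq_mul]
    refine Finset.sum_le_card_nsmul _ _ _ fun z hz => ?_
    have hz' : FK b z - FK b (oK D) = b z.out := by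
      rw [h.FK_oK, sub_zero]
      rfl
    rw [hz']
    rw [mem_nbK, dK_oK] at hz
    have h3 := hcon z.out (show D.ℓ z.out ≤ J from le_trans hz h.u_le)
    exact pow_le_pow_left₀ (norm_nonneg _) h3.le 2
  have h4 : (1 / (5200 * ((J : ℝ) + 1))) ^ 2 < 1 / (16 * (1 + 2 * (J : ℝ)) ^ 2) := by
    rw [div_pow, one_pow]
    apply one_div_lt_one_div_of_lt (by positivity)
    nlinarith
  linarith

theorem log_aux {x : ℝ} (hx : 1 ≤ x) : Real.log x + 6 ≤ Real.log (1000 * x) := by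
  rw [Real.log_mul (by norm_num) (by linarith)]
  have h1 : (6 : ℝ) ≤ Real.log 1000 := by
    rw [Real.le_log_iff_exp_le (by norm_num)]
    have h2 : Real.exp 6 = Real.exp 1 ^ 6 := by
      rw [← Real.exp_nat_mul]
      norm_num
    rw [h2]
    have h3 := Real.exp_one_lt_d9
    calc Real.exp 1 ^ 6 ≤ 2.7182818286 ^ 6 := pow_le_pow_left₀ (Real.exp_pos 1).le h3.le 6
      _ ≤ 1000 := by norm_num
  linarith

theorem arith1 {k J lm : ℝ} (hk : 1 ≤ k) (hJ : 1 ≤ J) (hlm : 0 ≤ lm) :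
    1 / (5200 * (J + 1)) * lm / k ≤ lm * k / (8 * (650 * (k * J))) := by
  have e1 : 1 / (5200 * (J + 1)) * lm / k = lm * (1 / (5200 * (J + 1) * k)) := by
    field_simp
  have e2 : lm * k / (8 * (650 * (k * J))) = lm * (1 / (5200 * J)) := by
    field_simp
    ring
  rw [e1, e2]
  refine mul_le_mul_of_nonneg_left ?_ hlm
  refine one_div_le_one_div_of_le (by positivity) ?_
  have h1 : (J + 1) * 1 ≤ (J + 1) * k := mul_le_mul_of_nonneg_left hk (by linarith)
  nlinarith

theorem arith2 {k J lm : ℝ} (hk : 1 ≤ k) (hJ : 1 ≤ J) (hlm : lm ≤ 51200) :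
    1 / (5200 * (J + 1)) * lm / k ≤ 650 * (k * J) := by
  have e1 : 1 / (5200 * (J + 1)) * lm / k = lm / (5200 * (J + 1) * k) := by
    field_simp
  rw [e1, div_le_iff₀ (by positivity)]
  have h1 : (1 : ℝ) ≤ k * J := by nlinarith
  have h2 : (1 : ℝ) ≤ (J + 1) * k := by nlinarith
  have h3 : (1 : ℝ) ≤ k * J * ((J + 1) * k) := by nlinarith
  calc lm ≤ 650 * 5200 * 1 := by linarith
    _ ≤ 650 * 5200 * (k * J * ((J + 1) * k)) := mul_le_mul_of_nonneg_left h3 (by norm_num)
    _ = _ := by ring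

theorem arith3 {t s : ℝ} (h0 : 0 ≤ t) (h2 : t ≤ 2) (hs : s ≤ 12800 * t) : s * t ≤ 51200 := by
  nlinarith

end

/-- the constant of the window -/
theorem lvlW : LvlW := by
  intro C J
  refine ⟨650, 150000 * 12801, 1 / (5200 * ((J : ℝ) + 1)), 1000 * ((C + 1) * (J + 1) ^ 2),
    by norm_num, by norm_num, by positivity, fun N => ?_⟩
  refine ⟨N * J, 2048 * 32 * 650 * (J + 1) * (N + 1) ^ 2, ?_⟩
  intro Γ _ D hD u A b h hsp hg hA
  have hV := vgK hD hsp h.u_pos
  have hF := h.equi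
  have hσ := h.sg_le
  have hJ1 := wcoc_J h
  have hA1 : (1 : ℝ) ≤ A := by exact_mod_cast h.A_pos
  have hA' : (2048 * 32 * 650 * (J + 1) * (N + 1) ^ 2 : ℝ) ≤ A := by exact_mod_cast hA
  have hβ := wcoc_vav h hsp
  have hβ0 : (0 : ℝ) < 2048 / A := by positivity
  -- the drift is small
  have hsmall : (2048 / A : ℝ) * (32 * 650 * (J + 1) * (N + 1) ^ 2) ≤ 1 := by
    rw [div_mul_eq_mul_div, div_le_one (by positivity)]
    calc (2048 : ℝ) * (32 * 650 * ((J : ℝ) + 1) * ((N : ℝ) + 1) ^ 2) =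
        2048 * 32 * 650 * ((J : ℝ) + 1) * ((N : ℝ) + 1) ^ 2 := by ring
      _ ≤ (A : ℝ) := hA'
  have hβN : (2048 / A : ℝ) * (N + 1) ^ 2 ≤ 1 := by
    refine le_trans (mul_le_mul_of_nonneg_left ?_ hβ0.le) hsmall
    have h1 : (1 : ℝ) ≤ 32 * 650 * (J + 1) := by nlinarith
    calc ((N : ℝ) + 1) ^ 2 = 1 * (N + 1) ^ 2 := (one_mul _).symm
      _ ≤ 32 * 650 * (J + 1) * (N + 1) ^ 2 := mul_le_mul_of_nonneg_right h1 (by positivity)
  refine ⟨fun k => Tk (nbK hD u) (FK b) k (oK D),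
    fun k => 768 ≤ k ∧ (k : ℝ) * (Hn (nbK hD u) (k + 1) (oK D) - Hn (nbK hD u) k (oK D)) ≤ 6, ?_⟩
  constructor
  · exact h.coc
  · intro g hg0
    exact h.ker g hg0
  · intro g
    refine (h.lip g).trans ?_
    have : (0 : ℝ) ≤ D.ℓ g := Nat.cast_nonneg _
    linarith
  · exact fun k x y => Tk_symm _ _ _ _ _
  · exact fun k x => Tk_nonneg _ _ _ _
  · intro k x
    refine (norm_Tk_le hV hF k _ x).trans ?_
    exact mul_le_mul_of_nonneg_right (hσ.trans (by norm_num)) (norm_nonneg _)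
  · intro k m x κ hκ hx
    refine (Tk_trB hV hF k (oK D) m x κ hκ hx).trans ?_
    exact mul_le_mul_of_nonneg_left (hσ.trans (by norm_num)) hκ
  · intro k hk g hg1 x
    refine (comm_near hV hF (c := 12800) (by norm_num) hσ hk (wcoc_near h g hg1) x).trans ?_
    refine mul_le_mul_of_nonneg_right ?_ (norm_nonneg _)
    exact div_le_div_of_nonneg_right (by norm_num) (Real.sqrt_nonneg _)
  · intro k hk hkN hgood g hg1 x
    have h1 := ozawa_near hV hF (c := 12800) (by norm_num) hσ hβ hgood.1 hgood.2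
      (wcoc_near h g hg1) x
    rw [wcoc_F h] at h1
    refine h1.trans ?_
    have hk0 : (0 : ℝ) < k := by exact_mod_cast hk
    have hk1 : (1 : ℝ) ≤ k := by exact_mod_cast hk
    have hkN' : (k : ℝ) ≤ N := by exact_mod_cast hkN
    have hsq : 0 < Real.sqrt k := Real.sqrt_pos.2 hk0
    -- k² β² ≤ 1 / √k
    have h2 : (k : ℝ) ^ 2 * (2048 / A) ^ 2 ≤ 1 / Real.sqrt k := by
      rw [le_div_iff₀ hsq]
      have h3 : Real.sqrt k ≤ k ^ 2 := by
        rw [Real.sqrt_le_left (by positivity)]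
        nlinarith [pow_pos hk0 3, mul_self_nonneg ((k : ℝ) ^ 2 - 1)]
      have h4 : (k : ℝ) ^ 2 * (2048 / A) ≤ 1 := by
        refine le_trans ?_ hβN
        rw [mul_comm]
        refine mul_le_mul_of_nonneg_left ?_ hβ0.le
        exact pow_le_pow_left₀ hk0.le (by linarith) 2
      calc (k : ℝ) ^ 2 * (2048 / A) ^ 2 * Real.sqrt k ≤ (k : ℝ) ^ 2 * (2048 / A) ^ 2 * k ^ 2 :=
            mul_le_mul_of_nonneg_left h3 (by positivity)
        _ = ((k : ℝ) ^ 2 * (2048 / A)) ^ 2 := by ring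
        _ ≤ 1 := by
          have h5 : 0 ≤ (k : ℝ) ^ 2 * (2048 / A) := by positivity
          nlinarith
    have h0 : 0 ≤ ⟪Tk (nbK hD u) (FK b) k (oK D) x, x⟫ := Tk_nonneg _ _ _ _
    have h6 : (12800 / Real.sqrt k + k ^ 2 * (2048 / A) ^ 2) * ‖x‖ ^ 2 ≤
        12801 * (‖x‖ ^ 2 / Real.sqrt k) := by
      calc _ ≤ (12800 / Real.sqrt k + 1 / Real.sqrt k) * ‖x‖ ^ 2 :=
            mul_le_mul_of_nonneg_right (by linarith) (by positivity)
        _ = 12801 * (‖x‖ ^ 2 / Real.sqrt k) := by ring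
    have h7 : 0 ≤ ‖x‖ ^ 2 / Real.sqrt k := by positivity
    nlinarith
  · intro k1 hk1 hk1N
    have hk1' : 1000 ≤ k1 := by
      refine le_trans ?_ hk1
      have : 1 ≤ (C + 1) * (J + 1) ^ 2 := Nat.one_le_iff_ne_zero.2 (by positivity)
      omega
    obtain ⟨k, h1, h2, h3⟩ := exists_good_time hV (((C : ℝ) + 1) * (J + 1) ^ 2) (by positivity) k1
      (by omega) (by
        rw [rbK_oK hD hsp, nbK_oK]
        have h4 := hg (k1 ^ 2 * u) (Nat.mul_pos (by positivity) h.u_pos)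
          (Nat.mul_le_mul hk1N h.u_le)
        have h5 : (bl hD 1).card ≤ (bl hD u).card := Finset.card_le_card (bl_mono hD h.u_pos)
        have h6 : (bl hD (k1 ^ 2 * u)).card ≤
            ((C + 1) * (J + 1) ^ 2) * (k1 ^ 2) ^ 2 * (bl hD u).card := by
          refine h4.trans ?_
          refine Nat.mul_le_mul ?_ h5
          rw [mul_pow]
          have h7 : u ^ 2 ≤ (J + 1) ^ 2 := Nat.pow_le_pow_left (h.u_le.trans (Nat.le_succ _)) 2
          calc C * ((k1 ^ 2) ^ 2 * u ^ 2) ≤ (C + 1) * ((k1 ^ 2) ^ 2 * (J + 1) ^ 2) :=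
                Nat.mul_le_mul (Nat.le_succ _) (Nat.mul_le_mul le_rfl h7)
            _ = _ := by ring
        exact_mod_cast h6)
      (by
        have h4 : (1 : ℝ) ≤ ((C : ℝ) + 1) * (J + 1) ^ 2 := by
          have : 1 ≤ (C + 1) * (J + 1) ^ 2 := Nat.one_le_iff_ne_zero.2 (by positivity)
          exact_mod_cast this
        have h5 : (1000 * (((C : ℝ) + 1) * (J + 1) ^ 2)) ≤ k1 := by exact_mod_cast hk1
        have h6 : Real.log (1000 * (((C : ℝ) + 1) * (J + 1) ^ 2)) ≤ Real.log k1 :=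
          Real.log_le_log (by positivity) h5
        have h7 : 0 ≤ Real.log k1 := Real.log_nonneg (by
          have : (1 : ℕ) ≤ k1 := by omega
          exact_mod_cast this)
        have h8 := log_aux h4
        linarith)
    exact ⟨k, h1, h2, by omega, h3⟩
  · intro k hk lm hlm hkN hlmN x hx hT
    have hk0 : (0 : ℝ) < k := by exact_mod_cast hk
    have hk1 : (1 : ℝ) ≤ k := by exact_mod_cast hk
    have hkN' : (k : ℝ) ≤ N := by exact_mod_cast hkN
    have hN0 : (0 : ℝ) < N := by linarith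
    obtain ⟨y, hy, h1⟩ := select hV hF (β := 2048 / A) (R := 650 * (k * J)) (lam := lm) hk hβ
      (by positivity) (by
        intro y hy
        rw [mem_rbK hD hsp] at hy
        refine (h.norm_sub_le _ _).trans ?_
        have h2 : dK D (oK D) y ≤ k * J := hy.trans (Nat.mul_le_mul le_rfl h.u_le)
        have h3 : (dK D (oK D) y : ℝ) ≤ k * J := by exact_mod_cast h2
        linarith) hlm hx hT (by
        have h2 : 32 * (650 * ((k : ℝ) * J)) * (2048 / A) * N ≤ 1 := by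
          refine le_trans ?_ hsmall
          rw [mul_comm (32 * (650 * ((k : ℝ) * J))) (2048 / (A : ℝ)), mul_assoc]
          refine mul_le_mul_of_nonneg_left ?_ hβ0.le
          have h3 : (k : ℝ) * N ≤ (N + 1) ^ 2 := by nlinarith
          calc 32 * (650 * ((k : ℝ) * J)) * N = 32 * 650 * J * (k * N) := by ring
            _ ≤ 32 * 650 * J * (N + 1) ^ 2 := mul_le_mul_of_nonneg_left h3 (by positivity)
            _ ≤ 32 * 650 * (J + 1) * (N + 1) ^ 2 := by
              refine mul_le_mul_of_nonneg_right ?_ (by positivity)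
              linarith
        have h3 : 32 * (650 * ((k : ℝ) * J)) * (2048 / A) * N ≤ lm * N := h2.trans hlmN
        exact le_of_mul_le_mul_right h3 hN0)
    refine ⟨y.out, ?_, ?_⟩
    · rw [mem_rbK hD hsp, dK_oK] at hy
      have h2 : D.ℓ y.out ≤ k * u := hy
      refine h2.trans ?_
      have h3 : k * u ≤ J * k := by
        rw [mul_comm]
        exact Nat.mul_le_mul h.u_le le_rfl
      refine h3.trans (Nat.mul_le_mul ?_ le_rfl)
      nlinarith [Nat.zero_le C, Nat.zero_le J, Nat.zero_le (C * (J + 1) ^ 2)]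
    · have h2 : FK b y - FK b (oK D) = b y.out := by
        rw [h.FK_oK, sub_zero]
        rfl
      rw [h2] at h1
      refine le_trans (le_min ?_ ?_) h1
      · exact arith1 hk1 hJ1 hlm.le
      · -- the trivial bound for `lm`
        have h3 : lm ≤ 51200 := by
          refine hT.trans ?_
          refine (real_inner_le_norm _ _).trans ?_
          have h4 := (norm_Tk_le hV hF k (oK D) x).trans
            (mul_le_mul_of_nonneg_right hσ (norm_nonneg _))
          exact arith3 (norm_nonneg x) hx h4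
        exact arith2 hk1 hJ1 h3
  · obtain ⟨g, h1, h2⟩ := wcoc_ne h
    refine ⟨g, h1.trans ?_, h2⟩
    nlinarith [Nat.zero_le C, Nat.zero_le J, Nat.zero_le (C * (J + 1) ^ 2)]

theorem limStmt : LimStmt := lim_of lvlW

end Vale.Agent.P151.R3.H362
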