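import Vale.Agent.P151.R3.H362.Car

/-!
# P151, R3, block H: sums of rank one operators
-/

universe u v

open Filter Topology
open scoped RealInnerProductSpace

namespace Vale.Agent.P151.R3.H362

variable {V : Type v} [NormedAddCommGroup V] [InnerProductSpace ℝ V] {S : Type u}

/-- The operator `v ↦ ∑ w_s ⟪b_s, v⟫ b_s`. -/
noncomputable def rk (s : Finset S) (w : S → ℝ) (b : S → V) : V →ₗ[ℝ] V where
  toFun v := ∑ x ∈ s, (w x * ⟪b x, v⟫) • b x
  map_add' v v' := by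
    rw [← Finset.sum_add_distrib]
    refine Finset.sum_congr rfl fun x _ => ?_
    rw [inner_add_right, mul_add, add_smul]
  map_smul' c v := by
    rw [RingHom.id_apply, Finset.smul_sum]
    refine Finset.sum_congr rfl fun x _ => ?_
    rw [real_inner_smul_right, smul_smul]
    congr 1
    ring

theorem rk_apply (s : Finset S) (w : S → ℝ) (b : S → V) (v : V) :
    rk s w b v = ∑ x ∈ s, (w x * ⟪b x, v⟫) • b x := rfl

theorem inner_rk (s : Finset S) (w : S → ℝ) (b : S → V) (v v' : V) :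
    ⟪rk s w b v, v'⟫ = ∑ x ∈ s, w x * (⟪b x, v⟫ * ⟪b x, v'⟫) := by
  rw [rk_apply, sum_inner]
  refine Finset.sum_congr rfl fun x _ => ?_
  rw [real_inner_smul_left]
  ring

theorem rk_symm (s : Finset S) (w : S → ℝ) (b : S → V) (v v' : V) :
    ⟪rk s w b v, v'⟫ = ⟪v, rk s w b v'⟫ := by
  rw [real_inner_comm (rk s w b v') v, inner_rk, inner_rk]
  refine Finset.sum_congr rfl fun x _ => ?_
  ring

theorem inner_rk_self (s : Finset S) (w : S → ℝ) (b : S → V) (v : V) :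
    ⟪rk s w b v, v⟫ = ∑ x ∈ s, w x * ⟪b x, v⟫ ^ 2 := by
  rw [inner_rk]
  refine Finset.sum_congr rfl fun x _ => ?_
  ring

theorem rk_nonneg (s : Finset S) (w : S → ℝ) (b : S → V) (hw : ∀ x ∈ s, 0 ≤ w x) (v : V) :
    0 ≤ ⟪rk s w b v, v⟫ := by
  rw [inner_rk_self]
  exact Finset.sum_nonneg fun x hx => mul_nonneg (hw x hx) (sq_nonneg _)

theorem norm_rk_le (s : Finset S) (w : S → ℝ) (b : S → V) (hw : ∀ x ∈ s, 0 ≤ w x) {c : ℝ}
    (hc : ∑ x ∈ s, w x * ‖b x‖ ^ 2 ≤ c) (v : V) : ‖rk s w b v‖ ≤ c * ‖v‖ := by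
  rw [rk_apply]
  refine (norm_sum_le _ _).trans ?_
  calc ∑ x ∈ s, ‖(w x * ⟪b x, v⟫) • b x‖ ≤ ∑ x ∈ s, w x * ‖b x‖ ^ 2 * ‖v‖ := by
        refine Finset.sum_le_sum fun x hx => ?_
        rw [norm_smul, norm_mul, Real.norm_eq_abs, Real.norm_eq_abs, abs_of_nonneg (hw x hx)]
        have h1 := abs_real_inner_le_norm (b x) v
        calc w x * |⟪b x, v⟫| * ‖b x‖ ≤ w x * (‖b x‖ * ‖v‖) * ‖b x‖ :=
              mul_le_mul_of_nonneg_right (mul_le_mul_of_nonneg_left h1 (hw x hx)) (norm_nonneg _)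
          _ = w x * ‖b x‖ ^ 2 * ‖v‖ := by ring
    _ = (∑ x ∈ s, w x * ‖b x‖ ^ 2) * ‖v‖ := by rw [Finset.sum_mul]
    _ ≤ c * ‖v‖ := mul_le_mul_of_nonneg_right hc (norm_nonneg _)

theorem trB_rk (s : Finset S) (w : S → ℝ) (b : S → V) (hw : ∀ x ∈ s, 0 ≤ w x) {c : ℝ}
    (hc : ∑ x ∈ s, w x * ‖b x‖ ^ 2 ≤ c) : TrB (fun v => ⟪rk s w b v, v⟫) c := by
  intro m x κ hκ hx
  simp only [inner_rk_self]
  rw [Finset.sum_comm]
  calc ∑ y ∈ s, ∑ j, w y * ⟪b y, x j⟫ ^ 2 ≤ ∑ y ∈ s, κ * (w y * ‖b y‖ ^ 2) := by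
        refine Finset.sum_le_sum fun y hy => ?_
        rw [← Finset.mul_sum]
        have h1 := hx (b y)
        have e1 : ∀ j, ⟪b y, x j⟫ = ⟪x j, b y⟫ := fun j => real_inner_comm _ _
        simp only [e1]
        calc w y * ∑ j, ⟪x j, b y⟫ ^ 2 ≤ w y * (κ * ‖b y‖ ^ 2) :=
              mul_le_mul_of_nonneg_left h1 (hw y hy)
          _ = κ * (w y * ‖b y‖ ^ 2) := by ring
    _ = κ * ∑ y ∈ s, w y * ‖b y‖ ^ 2 := by rw [Finset.mul_sum]
    _ ≤ κ * c := mul_le_mul_of_nonneg_left hc hκ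

/-- Selection: a random variable of small mean, bounded by `B`, with second moment at least `a`,
takes a value at least `a / (4 B)`. -/
theorem exists_ge_of_second_moment (s : Finset S) (w f : S → ℝ) (hw : ∀ x ∈ s, 0 ≤ w x)
    (hw1 : ∑ x ∈ s, w x = 1) {B a η : ℝ} (hB : 0 < B) (hf : ∀ x ∈ s, |f x| ≤ B) (ha0 : 0 < a)
    (hη : η ≤ a / (2 * B))
    (hmean : |∑ x ∈ s, w x * f x| ≤ η) (ha : a ≤ ∑ x ∈ s, w x * f x ^ 2) :
    ∃ x ∈ s, a / (4 * B) ≤ f x := by
  by_contra hcon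
  push Not at hcon
  have h1 : a / B ≤ ∑ x ∈ s, w x * |f x| := by
    rw [div_le_iff₀ hB]
    refine ha.trans ?_
    rw [Finset.sum_mul]
    refine Finset.sum_le_sum fun x hx => ?_
    rw [mul_assoc]
    refine mul_le_mul_of_nonneg_left ?_ (hw x hx)
    rw [← sq_abs, sq]
    exact mul_le_mul_of_nonneg_left (hf x hx) (abs_nonneg _)
  have hpos : 0 < a / (4 * B) := by positivity
  have h2 : ∑ x ∈ s, w x * |f x| + ∑ x ∈ s, w x * f x ≤
      ∑ x ∈ s, w x * (2 * max (f x) 0) := by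
    rw [← Finset.sum_add_distrib]
    refine Finset.sum_le_sum fun x hx => ?_
    rw [← mul_add]
    refine mul_le_mul_of_nonneg_left ?_ (hw x hx)
    rcases le_total 0 (f x) with h | h
    · rw [abs_of_nonneg h, max_eq_left h]; linarith
    · rw [abs_of_nonpos h, max_eq_right h]; linarith
  have h3 : ∑ x ∈ s, w x * (2 * max (f x) 0) < a / (2 * B) := by
    have hex : ∃ x ∈ s, 0 < w x := by
      by_contra hno
      push Not at hno
      have : ∑ x ∈ s, w x ≤ 0 := Finset.sum_nonpos hno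
      linarith
    obtain ⟨x0, hx0, hwx0⟩ := hex
    have e1 : 2 * (a / (4 * B)) = a / (2 * B) := by field_simp; norm_num
    calc ∑ x ∈ s, w x * (2 * max (f x) 0) < ∑ x ∈ s, w x * (a / (2 * B)) := by
          refine Finset.sum_lt_sum (fun x hx => ?_) ⟨x0, hx0, ?_⟩
          · refine mul_le_mul_of_nonneg_left ?_ (hw x hx)
            have := hcon x hx
            have h5 : max (f x) 0 ≤ a / (4 * B) := max_le this.le hpos.le
            linarith
          · refine mul_lt_mul_of_pos_left ?_ hwx0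
            have := hcon x0 hx0
            have h5 : max (f x0) 0 < a / (4 * B) := max_lt this hpos
            linarith
      _ = a / (2 * B) := by rw [← Finset.sum_mul, hw1, one_mul]
  have h4 := (abs_le.1 hmean).1
  have e2 : a / B = a / (2 * B) + a / (2 * B) := by field_simp; norm_num
  linarith

end Vale.Agent.P151.R3.H362
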